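import Mathlib
import Crest.Agent.Lib.PrimrecRat.Rat

/-! Uniformly computable families of real numbers. -/

set_option autoImplicit false

namespace Crest.Agent.R126

open Crest.Agent.PrimrecRat Real

variable {α β : Type*} [Primcodable α] [Primcodable β]

/-- a family of reals that can be approximated primitive recursively -/
def CReal (x : α → ℝ) : Prop :=
  ∃ E : α × ℕ → ℚ, Primrec E ∧ ∀ a n, |x a - E (a, n)| ≤ 1 / ((n : ℝ) + 1)

theorem CReal.of_approx {x : α → ℝ} (E : α × ℕ → ℚ) (C : α → ℕ) (hE : Primrec E) (hC : Primrec C)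
    (h : ∀ a n, |x a - E (a, n)| ≤ C a / ((n : ℝ) + 1)) : CReal x := by
  refine ⟨fun p => E (p.1, C p.1 * (p.2 + 1)), by fun_prop, fun a n => (h a _).trans ?_⟩
  rw [div_le_div_iff₀ (by positivity) (by positivity)]
  push_cast
  linarith

theorem CReal.of_eq {x y : α → ℝ} (hx : CReal x) (h : ∀ a, x a = y a) : CReal y :=
  (funext h : x = y) ▸ hx

theorem CReal.ofRat {q : α → ℚ} (hq : Primrec q) : CReal fun a => (q a : ℝ) :=
  ⟨fun p => q p.1, by fun_prop, fun a n => by simp; positivity⟩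

theorem CReal.comp {x : α → ℝ} (hx : CReal x) {g : β → α} (hg : Primrec g) :
    CReal fun b => x (g b) := by
  obtain ⟨E, hE, h⟩ := hx
  exact ⟨fun p => E (g p.1, p.2), by fun_prop, fun b n => h (g b) n⟩

theorem CReal.neg {x : α → ℝ} (hx : CReal x) : CReal fun a => -x a := by
  obtain ⟨E, hE, h⟩ := hx
  refine ⟨fun p => -E p, by fun_prop, fun a n => ?_⟩
  have := h a n
  rw [← abs_neg] at this
  convert this using 2
  push_cast; ring

theorem CReal.add {x y : α → ℝ} (hx : CReal x) (hy : CReal y) : CReal fun a => x a + y a := by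
  obtain ⟨E, hE, h⟩ := hx
  obtain ⟨F, hF, h'⟩ := hy
  refine CReal.of_approx (fun p => E p + F p) (fun _ => 2) (by fun_prop) (by fun_prop) fun a n => ?_
  have e : x a + y a - ((E (a, n) + F (a, n) : ℚ) : ℝ) = (x a - E (a, n)) + (y a - F (a, n)) := by
    push_cast; ring
  rw [e]
  refine (abs_add_le _ _).trans ?_
  have := h a n
  have := h' a n
  have e2 : ((2 : ℕ) : ℝ) / ((n : ℝ) + 1) = 1 / ((n : ℝ) + 1) + 1 / ((n : ℝ) + 1) := by
    push_cast; ring
  linarith

theorem CReal.sub {x y : α → ℝ} (hx : CReal x) (hy : CReal y) : CReal fun a => x a - y a :=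
  (hx.add hy.neg).of_eq fun a => by ring

theorem one_div_le_one (n : ℕ) : 1 / ((n : ℝ) + 1) ≤ 1 := by
  rw [div_le_one (by positivity)]
  have : (0 : ℝ) ≤ n := by positivity
  linarith

theorem abs_cast_le (q : ℚ) : |(q : ℝ)| ≤ (q.num.natAbs : ℝ) := by
  have := abs_le_natAbs_num q
  exact_mod_cast this

theorem CReal.bound {x : α → ℝ} (hx : CReal x) : ∃ B : α → ℕ, Primrec B ∧ ∀ a, |x a| ≤ B a := by
  obtain ⟨E, hE, h⟩ := hx
  refine ⟨fun a => (E (a, 0)).num.natAbs + 1, by fun_prop, fun a => ?_⟩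
  have h1 := h a 0
  have h2 := abs_cast_le (E (a, 0))
  have h3 := abs_add_le (x a - E (a, 0)) (E (a, 0))
  simp only [sub_add_cancel] at h3
  push_cast
  simp only [Nat.cast_zero, zero_add, div_one] at h1
  linarith

theorem CReal.mul {x y : α → ℝ} (hx : CReal x) (hy : CReal y) : CReal fun a => x a * y a := by
  obtain ⟨B, hB, hb⟩ := hx.bound
  obtain ⟨C, hC, hc⟩ := hy.bound
  obtain ⟨E, hE, h⟩ := hx
  obtain ⟨F, hF, h'⟩ := hy
  refine CReal.of_approx (fun p => E p * F p) (fun a => B a + (C a + 1)) (by fun_prop) (by fun_prop)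
    fun a n => ?_
  have e : x a * y a - ((E (a, n) * F (a, n) : ℚ) : ℝ) =
      x a * (y a - F (a, n)) + (F (a, n)) * (x a - E (a, n)) := by
    push_cast; ring
  rw [e]
  refine (abs_add_le _ _).trans ?_
  rw [abs_mul, abs_mul]
  have h1 := h a n
  have h2 := h' a n
  have h3 : |(F (a, n) : ℝ)| ≤ C a + 1 := by
    have h4 := abs_sub (y a) (y a - F (a, n))
    simp only [sub_sub_cancel] at h4
    have := one_div_le_one n
    have := hc a
    linarith
  have h5 := mul_le_mul (hb a) h2 (abs_nonneg _) (by positivity)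
  have h6 := mul_le_mul h3 h1 (abs_nonneg _) (by positivity)
  have e2 : ((B a + (C a + 1) : ℕ) : ℝ) / ((n : ℝ) + 1) =
      B a * (1 / ((n : ℝ) + 1)) + (C a + 1) * (1 / ((n : ℝ) + 1)) := by
    push_cast; ring
  linarith

theorem CReal.ite {c : α → Prop} [DecidablePred c] (hc : PrimrecPred c) {x y : α → ℝ}
    (hx : CReal x) (hy : CReal y) : CReal fun a => if c a then x a else y a := by
  obtain ⟨E, hE, h⟩ := hx
  obtain ⟨F, hF, h'⟩ := hy
  refine ⟨fun p => if c p.1 then E p else F p, by fun_prop, fun a n => ?_⟩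
  simp only
  split_ifs
  · exact h a n
  · exact h' a n

theorem CReal.listSum {l : α → List β} (hl : Primrec l) {x : α × β → ℝ} (hx : CReal x) :
    CReal fun a => ((l a).map fun b => x (a, b)).sum := by
  obtain ⟨E, hE, h⟩ := hx
  refine CReal.of_approx (fun p => ((l p.1).map fun b => E ((p.1, b), p.2)).sum)
    (fun a => (l a).length) (by fun_prop) (by fun_prop) fun a n => ?_
  simp only
  induction l a with
  | nil => simp
  | cons b t ih =>
    simp only [List.map_cons, List.sum_cons, List.length_cons]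
    have e : x (a, b) + (t.map fun b => x (a, b)).sum -
        ((E ((a, b), n) + (t.map fun b => E ((a, b), n)).sum : ℚ) : ℝ) =
        (x (a, b) - E ((a, b), n)) + ((t.map fun b => x (a, b)).sum -
          (((t.map fun b => E ((a, b), n)).sum : ℚ) : ℝ)) := by
      rw [Rat.cast_add]; ring
    rw [e]
    refine (abs_add_le _ _).trans ?_
    have := h (a, b) n
    have e2 : ((t.length + 1 : ℕ) : ℝ) / ((n : ℝ) + 1) =
        1 / ((n : ℝ) + 1) + (t.length : ℝ) / ((n : ℝ) + 1) := by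
      push_cast; ring
    linarith

theorem CReal.pow {x : α → ℝ} (hx : CReal x) {m : α → ℕ} (hm : Primrec m) :
    CReal fun a => x a ^ m a := by
  obtain ⟨B, hB, hb⟩ := hx.bound
  obtain ⟨E, hE, h⟩ := hx
  refine CReal.of_approx (fun p => E p ^ m p.1) (fun a => m a * (B a + 1) ^ (m a - 1))
    (by fun_prop) (by fun_prop) fun a n => ?_
  simp only [Rat.cast_pow]
  refine (abs_pow_sub_pow_le _ _ _).trans ?_
  have h1 := h a n
  have h3 : |(E (a, n) : ℝ)| ≤ B a + 1 := by
    have h4 := abs_sub (x a) (x a - E (a, n))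
    simp only [sub_sub_cancel] at h4
    have := one_div_le_one n
    have := hb a
    linarith
  have h4 : max |x a| |(E (a, n) : ℝ)| ≤ B a + 1 := max_le (by linarith [hb a]) h3
  have h5 : max |x a| |(E (a, n) : ℝ)| ^ (m a - 1) ≤ ((B a : ℝ) + 1) ^ (m a - 1) :=
    pow_le_pow_left₀ (le_max_of_le_left (abs_nonneg _)) h4 _
  calc |x a - E (a, n)| * (m a) * max |x a| |(E (a, n) : ℝ)| ^ (m a - 1)
      ≤ 1 / ((n : ℝ) + 1) * (m a) * ((B a : ℝ) + 1) ^ (m a - 1) := by gcongr
    _ = _ := by push_cast; ring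

theorem exp_neg_approx {r : ℝ} (hr : 0 ≤ r) {N : ℕ} (hN : 0 < N) (h : r ^ 2 ≤ N) :
    |exp (-r) - ((1 + r / N) ^ N)⁻¹| ≤ 2 * (r ^ 2 / N) := by
  have hN' : (0 : ℝ) < N := by exact_mod_cast hN
  set z := r / N with hz
  have hz0 : 0 ≤ z := by positivity
  have hrz : r = N * z := by rw [hz]; field_simp
  have h1 : (1 + z) ^ N ≤ exp r := by
    rw [hrz, Real.exp_nat_mul]
    exact pow_le_pow_left₀ (by positivity) (by linarith [add_one_le_exp z]) _
  have h2 : exp (r - r ^ 2 / N) ≤ (1 + z) ^ N := by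
    have e : r - r ^ 2 / N = N * (z - z ^ 2) := by rw [hz]; field_simp
    rw [e, Real.exp_nat_mul]
    refine pow_le_pow_left₀ (exp_pos _).le ?_ _
    rw [← le_log_iff_exp_le (by positivity)]
    have h3 := one_sub_inv_le_log_of_pos (x := 1 + z) (by positivity)
    have h4 : z - z ^ 2 ≤ 1 - (1 + z)⁻¹ := by
      have : (1 + z)⁻¹ ≤ 1 - z + z ^ 2 := by
        rw [inv_le_iff_one_le_mul₀ (by positivity)]
        nlinarith [pow_nonneg hz0 3]
      linarith
    linarith
  set δ := r ^ 2 / N with hδ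
  have hδ0 : 0 ≤ δ := by positivity
  have hδ1 : δ ≤ 1 := by rw [hδ, div_le_one hN']; exact h
  have h5 : exp (-r) ≤ ((1 + z) ^ N)⁻¹ := by
    rw [exp_neg]; exact inv_anti₀ (by positivity) h1
  have h6 : ((1 + z) ^ N)⁻¹ ≤ exp (-r) * exp δ := by
    rw [← exp_add, show -r + δ = -(r - δ) by ring, exp_neg]
    exact inv_anti₀ (exp_pos _) h2
  have h7 : exp δ ≤ 1 + 2 * δ := by
    have := Real.abs_exp_sub_one_le (x := δ) (by rwa [abs_of_nonneg hδ0])
    rw [abs_of_nonneg hδ0] at this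
    linarith [le_abs_self (exp δ - 1)]
  have h8 : exp (-r) ≤ 1 := by rw [exp_le_one_iff]; linarith
  have h9 := exp_pos (-r)
  rw [abs_sub_comm, abs_of_nonneg (by linarith)]
  nlinarith

theorem CReal.expNeg {r : α → ℚ} (hr : Primrec r) (h0 : ∀ a, 0 ≤ r a) :
    CReal fun a => exp (-(r a : ℝ)) := by
  refine CReal.of_approx
    (fun p => ((1 + r p.1 / ((((r p.1).num.natAbs ^ 2 + 1) * (p.2 + 1) : ℕ) : ℚ)) ^
      (((r p.1).num.natAbs ^ 2 + 1) * (p.2 + 1)))⁻¹) (fun _ => 2) (by fun_prop) (by fun_prop)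
    fun a n => ?_
  have h1 : (0 : ℝ) ≤ r a := by exact_mod_cast h0 a
  have h2 := abs_cast_le (r a)
  rw [abs_of_nonneg h1] at h2
  set M : ℕ := (r a).num.natAbs with hM
  have h3 : (r a : ℝ) ^ 2 ≤ (M : ℝ) ^ 2 := pow_le_pow_left₀ h1 h2 2
  have hn : (0 : ℝ) ≤ n := by positivity
  have h4 := exp_neg_approx h1 (N := (M ^ 2 + 1) * (n + 1)) (by positivity)
    (by push_cast; nlinarith [sq_nonneg (M : ℝ)])
  simp only [Rat.cast_inv, Rat.cast_pow, Rat.cast_add, Rat.cast_one, Rat.cast_div, Rat.cast_natCast]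
  refine h4.trans ?_
  rw [← mul_div_assoc, div_le_div_iff₀ (by positivity) (by positivity)]
  push_cast
  nlinarith

theorem CReal.inv_one_add {x : α → ℝ} (hx : CReal x) (h0 : ∀ a, 0 ≤ x a) :
    CReal fun a => (1 + x a)⁻¹ := by
  obtain ⟨E, hE, h⟩ := hx
  refine ⟨fun p => (1 + if 0 ≤ E p then E p else 0)⁻¹, by fun_prop, fun a n => le_trans ?_ (h a n)⟩
  have hx0 := h0 a
  have key : ∀ y : ℝ, 0 ≤ y → |(1 + x a)⁻¹ - (1 + y)⁻¹| ≤ |x a - y| := by
    intro y hy
    have e : (1 + x a)⁻¹ - (1 + y)⁻¹ = -(x a - y) / ((1 + x a) * (1 + y)) := by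
      field_simp; ring
    rw [e, abs_div, abs_neg, abs_of_pos (by positivity : 0 < (1 + x a) * (1 + y))]
    exact div_le_self (abs_nonneg _) (by nlinarith)
  simp only
  split_ifs with hE0
  · push_cast
    exact key _ (by exact_mod_cast hE0)
  · push_cast
    refine (key 0 le_rfl).trans ?_
    have : (E (a, n) : ℝ) < 0 := by exact_mod_cast not_le.1 hE0
    rw [abs_of_nonneg (by linarith), abs_of_nonneg (by linarith)]
    linarith

theorem creal_log_of_le_one {ρ : ℚ} (h0 : 0 < ρ) (h1 : ρ ≤ 1) :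
    CReal fun _ : α => log (ρ : ℝ) := by
  refine CReal.of_approx
    (fun p => -((List.range p.2).map fun i : ℕ => (1 - ρ) ^ (i + 1) / ((i : ℚ) + 1)).sum)
    (fun _ => (ρ⁻¹ ^ 2).num.natAbs) (by fun_prop) (by fun_prop) fun _ n => ?_
  have h0' : (0 : ℝ) < ρ := by exact_mod_cast h0
  have h1' : (ρ : ℝ) ≤ 1 := by exact_mod_cast h1
  have hx : |1 - (ρ : ℝ)| < 1 := by rw [abs_of_nonneg (by linarith)]; linarith
  have h2 := Real.abs_log_sub_add_sum_range_le hx n
  rw [abs_of_nonneg (by linarith : (0 : ℝ) ≤ 1 - ρ), sub_sub_cancel] at h2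
  have e : log (ρ : ℝ) - ((-((List.range n).map fun i : ℕ => (1 - ρ) ^ (i + 1) / ((i : ℚ) + 1)).sum : ℚ) : ℝ)
      = ∑ i ∈ Finset.range n, (1 - (ρ : ℝ)) ^ (i + 1) / (i + 1) + log (ρ : ℝ) := by
    have e0 : ((List.range n).map fun i : ℕ => (1 - ρ) ^ (i + 1) / ((i : ℚ) + 1)).sum =
        ∑ i ∈ Finset.range n, (1 - ρ) ^ (i + 1) / ((i : ℚ) + 1) := rfl
    rw [e0, Rat.cast_neg, Rat.cast_sum]
    push_cast; ring
  simp only
  rw [e]
  refine h2.trans ?_
  have h3 := abs_cast_le (ρ⁻¹ ^ 2)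
  rw [abs_of_nonneg (by positivity)] at h3
  push_cast at h3
  set x := 1 - (ρ : ℝ) with hxdef
  have hx0 : 0 ≤ x := by linarith
  have hx1 : x ≤ 1 := by linarith
  have h4 : ∀ m : ℕ, (m : ℝ) * x ^ m * ρ ≤ 1 - x ^ m := by
    intro m
    induction m with
    | zero => simp
    | succ m ih =>
      have hp : 0 ≤ x ^ m := pow_nonneg hx0 m
      have hρ : (ρ : ℝ) = 1 - x := by rw [hxdef]; ring
      have hm : (0 : ℝ) ≤ m := by positivity
      have h5 : (m : ℝ) * x ^ m * ρ * x ≤ m * x ^ m * ρ :=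
        mul_le_of_le_one_right (by positivity) hx1
      have h6 : x ^ m * x * ρ ≤ x ^ m * ρ := by
        have := mul_le_of_le_one_right (mul_nonneg hp h0'.le) hx1
        linarith
      rw [pow_succ]
      push_cast
      have h7 : x ^ m * ρ = x ^ m - x ^ m * x := by rw [hρ]; ring
      nlinarith
  have h5 := h4 (n + 1)
  have h6 : 0 ≤ x ^ (n + 1) := pow_nonneg hx0 _
  push_cast at h5
  rw [div_le_div_iff₀ h0' (by positivity)]
  have h7 : (ρ : ℝ)⁻¹ ≤ ((ρ⁻¹ ^ 2).num.natAbs : ℝ) * ρ := by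
    have := mul_le_mul_of_nonneg_right h3 h0'.le
    refine le_trans (le_of_eq ?_) this
    field_simp
  have h8 : x ^ (n + 1) * ((n : ℝ) + 1) ≤ (ρ : ℝ)⁻¹ := by
    rw [← one_div, le_div_iff₀ h0']
    linarith
  linarith

theorem creal_log {ρ : ℚ} (h0 : 0 < ρ) : CReal fun _ : α => log (ρ : ℝ) := by
  rcases le_total ρ 1 with h | h
  · exact creal_log_of_le_one h0 h
  · refine (creal_log_of_le_one (ρ := ρ⁻¹) (inv_pos.2 h0) (inv_le_one_of_one_le₀ h)).neg.of_eq
      fun _ => ?_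
    rw [Rat.cast_inv, log_inv, neg_neg]

end Crest.Agent.R126
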