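import Mathlib
import Crest.Agent.R126.CReal

/-! All derivatives of `Real.smoothTransition` are uniformly computable and computably bounded. -/

set_option autoImplicit false

namespace Crest.Agent.R126

open Crest.Agent.PrimrecRat Real Filter Topology Set
open scoped ContDiff

local notation "S" => Real.smoothTransition

/-- monomial `c u^{-a} (1-u)^{-b} S^m (1-S)^l` -/
abbrev Mono := ℚ × ℕ × ℕ × ℕ × ℕ

noncomputable def Mono.val (p : Mono) (u : ℝ) : ℝ :=
  (p.1 : ℝ) * (u⁻¹ ^ p.2.1 * (1 - u)⁻¹ ^ p.2.2.1) * (S u ^ p.2.2.2.1 * (1 - S u) ^ p.2.2.2.2)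

def Mono.der (p : Mono) : List Mono :=
  [(-(p.1 * p.2.1), p.2.1 + 1, p.2.2.1, p.2.2.2.1, p.2.2.2.2),
   (p.1 * p.2.2.1, p.2.1, p.2.2.1 + 1, p.2.2.2.1, p.2.2.2.2),
   (p.1 * p.2.2.2.1, p.2.1 + 2, p.2.2.1, p.2.2.2.1, p.2.2.2.2 + 1),
   (p.1 * p.2.2.2.1, p.2.1, p.2.2.1 + 2, p.2.2.2.1, p.2.2.2.2 + 1),
   (-(p.1 * p.2.2.2.2), p.2.1 + 2, p.2.2.1, p.2.2.2.1 + 1, p.2.2.2.2),
   (-(p.1 * p.2.2.2.2), p.2.1, p.2.2.1 + 2, p.2.2.2.1 + 1, p.2.2.2.2)]

noncomputable def polyVal (P : List Mono) (u : ℝ) : ℝ := (P.map fun p => p.val u).sum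

def polyDer (P : List Mono) : List Mono := P.flatMap Mono.der

def QQ (k : ℕ) : List Mono := polyDer^[k] [(1, 2, 0, 1, 1), (1, 0, 2, 1, 1)]

theorem primrec_QQ : Primrec QQ := by
  have h1 : Primrec Mono.der := by unfold Mono.der; fun_prop
  have h2 : Primrec polyDer := by unfold polyDer; fun_prop
  unfold QQ
  exact pr_iterate (h := fun _ => polyDer) (by fun_prop) (by fun_prop) (by fun_prop)

theorem S_eq {u : ℝ} (h0 : 0 < u) (h1 : u < 1) :
    S u = exp (-u⁻¹) / (exp (-u⁻¹) + exp (-(1 - u)⁻¹)) := by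
  unfold Real.smoothTransition expNegInvGlue
  rw [if_neg (by linarith), if_neg (by linarith)]

theorem hasDerivAt_S {u : ℝ} (h0 : 0 < u) (h1 : u < 1) :
    HasDerivAt S (S u * (1 - S u) * (u⁻¹ ^ 2 + (1 - u)⁻¹ ^ 2)) u := by
  have h2 : 0 < 1 - u := by linarith
  have e : S =ᶠ[𝓝 u] fun u => exp (-u⁻¹) / (exp (-u⁻¹) + exp (-(1 - u)⁻¹)) := by
    filter_upwards [Ioo_mem_nhds h0 h1] with v hv using S_eq hv.1 hv.2
  have d1 : HasDerivAt (fun u : ℝ => exp (-u⁻¹)) (exp (-u⁻¹) * -(-(u ^ 2)⁻¹)) u :=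
    (hasDerivAt_inv h0.ne').neg.exp
  have d2 : HasDerivAt (fun u : ℝ => exp (-(1 - u)⁻¹))
      (exp (-(1 - u)⁻¹) * -(-(-1) / (1 - u) ^ 2)) u :=
    (((hasDerivAt_id u).const_sub 1).inv h2.ne').neg.exp
  have hD : 0 < exp (-u⁻¹) + exp (-(1 - u)⁻¹) := by positivity
  have d3 := d1.div (d1.add d2) hD.ne'
  refine HasDerivAt.congr_deriv (d3.congr_of_eventuallyEq e) ?_
  rw [S_eq h0 h1]
  simp only [Pi.add_apply]
  field_simp
  ring

theorem Mono.hasDerivAt (p : Mono) {u : ℝ} (h0 : 0 < u) (h1 : u < 1) :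
    HasDerivAt p.val (polyVal p.der u) u := by
  obtain ⟨c, a, b, m, l⟩ := p
  have h2 : 0 < 1 - u := by linarith
  have d1 : HasDerivAt (fun u : ℝ => u⁻¹ ^ a) (-(a * u⁻¹ ^ (a + 1))) u := by
    refine HasDerivAt.congr_deriv ((hasDerivAt_inv h0.ne').pow a) ?_
    cases a with
    | zero => simp
    | succ a => simp only [Nat.add_sub_cancel]; rw [← inv_pow]; ring
  have d2 : HasDerivAt (fun u : ℝ => (1 - u)⁻¹ ^ b) (b * (1 - u)⁻¹ ^ (b + 1)) u := by
    refine HasDerivAt.congr_deriv ((((hasDerivAt_id u).const_sub 1).inv h2.ne').pow b) ?_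
    cases b with
    | zero => simp
    | succ b =>
      simp only [Nat.add_sub_cancel, id, Pi.inv_apply]
      rw [div_eq_mul_inv, ← inv_pow]; ring
  have d3 : HasDerivAt (fun u : ℝ => S u ^ m)
      (m * S u ^ m * (1 - S u) * (u⁻¹ ^ 2 + (1 - u)⁻¹ ^ 2)) u := by
    refine HasDerivAt.congr_deriv ((hasDerivAt_S h0 h1).pow m) ?_
    cases m with
    | zero => simp
    | succ m => simp only [Nat.add_sub_cancel]; ring
  have d4 : HasDerivAt (fun u : ℝ => (1 - S u) ^ l)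
      (-(l * S u * (1 - S u) ^ l * (u⁻¹ ^ 2 + (1 - u)⁻¹ ^ 2))) u := by
    refine HasDerivAt.congr_deriv (((hasDerivAt_S h0 h1).const_sub 1).pow l) ?_
    cases l with
    | zero => simp
    | succ l => simp only [Nat.add_sub_cancel]; ring
  refine HasDerivAt.congr_deriv (((d1.mul d2).const_mul (c : ℝ)).mul (d3.mul d4)) ?_
  simp only [polyVal, Mono.der, Mono.val, List.map_cons, List.map_nil, List.sum_cons, List.sum_nil,
    Pi.mul_apply]
  push_cast
  ring

theorem polyVal_hasDerivAt (P : List Mono) {u : ℝ} (h0 : 0 < u) (h1 : u < 1) :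
    HasDerivAt (polyVal P) (polyVal (polyDer P) u) u := by
  induction P with
  | nil => exact hasDerivAt_const u 0
  | cons p P ih =>
    have e : polyVal (p :: P) = fun u => p.val u + polyVal P u := by
      funext u; simp [polyVal]
    rw [e]
    refine HasDerivAt.congr_deriv ((p.hasDerivAt h0 h1).add ih) ?_
    simp [polyVal, polyDer]

theorem iteratedDeriv_S_in (k : ℕ) : ∀ {u : ℝ}, 0 < u → u < 1 →
    iteratedDeriv (k + 1) S u = polyVal (QQ k) u := by
  induction k with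
  | zero =>
    intro u h0 h1
    rw [zero_add, iteratedDeriv_one, (hasDerivAt_S h0 h1).deriv]
    simp [QQ, polyVal, Mono.val]
    ring
  | succ k ih =>
    intro u h0 h1
    have e : iteratedDeriv (k + 1) S =ᶠ[𝓝 u] polyVal (QQ k) := by
      filter_upwards [Ioo_mem_nhds h0 h1] with v hv using ih hv.1 hv.2
    rw [iteratedDeriv_succ, e.deriv_eq, (polyVal_hasDerivAt _ h0 h1).deriv]
    unfold QQ
    rw [Function.iterate_succ_apply']

theorem iteratedDeriv_S_out (k : ℕ) {u : ℝ} (h : ¬ (0 < u ∧ u < 1)) :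
    iteratedDeriv (k + 1) S u = 0 := by
  have hc : Continuous (iteratedDeriv (k + 1) S) :=
    (Real.smoothTransition.contDiff (n := ((k + 1 : ℕ) : ℕ∞))).continuous_iteratedDeriv _ le_rfl
  have hcl : IsClosed {u | iteratedDeriv (k + 1) S u = 0} := isClosed_eq hc continuous_const
  have h1 : Iio (0 : ℝ) ⊆ {u | iteratedDeriv (k + 1) S u = 0} := by
    intro v hv
    have e : S =ᶠ[𝓝 v] fun _ => 0 := by
      filter_upwards [Iio_mem_nhds hv] with w hw using Real.smoothTransition.zero_of_nonpos (le_of_lt hw)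
    show iteratedDeriv (k + 1) S v = 0
    rw [e.iteratedDeriv_eq, iteratedDeriv_const]; simp
  have h2 : Ioi (1 : ℝ) ⊆ {u | iteratedDeriv (k + 1) S u = 0} := by
    intro v hv
    have e : S =ᶠ[𝓝 v] fun _ => 1 := by
      filter_upwards [Ioi_mem_nhds hv] with w hw using Real.smoothTransition.one_of_one_le (le_of_lt hw)
    show iteratedDeriv (k + 1) S v = 0
    rw [e.iteratedDeriv_eq, iteratedDeriv_const]; simp
  have h3 := hcl.closure_subset_iff.2 h1
  have h4 := hcl.closure_subset_iff.2 h2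
  rw [closure_Iio] at h3
  rw [closure_Ioi] at h4
  rcases le_or_gt u 0 with hu | hu
  · exact h3 hu
  · exact h4 (not_lt.1 fun h' => h ⟨hu, h'⟩)

theorem QQ_inv (k : ℕ) : ∀ p ∈ QQ k, 1 ≤ p.2.2.2.1 ∧ 1 ≤ p.2.2.2.2 := by
  induction k with
  | zero => simp [QQ]
  | succ k ih =>
    intro p hp
    unfold QQ at hp
    rw [Function.iterate_succ_apply'] at hp
    obtain ⟨q, hq, hpq⟩ := List.mem_flatMap.1 hp
    have := ih q hq
    simp only [Mono.der, List.mem_cons, List.not_mem_nil, or_false] at hpq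
    rcases hpq with rfl | rfl | rfl | rfl | rfl | rfl <;> simp only <;> omega

theorem pow_mul_exp_neg_le {w : ℝ} (hw : 0 ≤ w) (a : ℕ) : w ^ a * exp (-w) ≤ (a : ℝ) ^ a := by
  have h1 := Real.pow_div_factorial_le_exp w hw a
  have h2 : ((a.factorial : ℕ) : ℝ) ≤ (a : ℝ) ^ a := by exact_mod_cast Nat.factorial_le_pow a
  rw [div_le_iff₀ (by positivity)] at h1
  rw [exp_neg, ← div_eq_mul_inv, div_le_iff₀ (exp_pos _)]
  nlinarith [exp_pos w]

theorem exp_two_le : exp 2 ≤ 9 := by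
  have h1 := Real.exp_one_lt_d9
  have h2 : exp 2 = exp 1 * exp 1 := by rw [← exp_add]; norm_num
  have h3 := exp_pos 1
  nlinarith

theorem core_bound {x y : ℝ} (hx : 0 ≤ x) (hy0 : 0 ≤ y) (hy : y ≤ 2) (a b : ℕ) :
    x ^ a * y ^ b * (exp (-x) / (exp (-x) + exp (-y))) ≤ 9 * (2 ^ b * (a : ℝ) ^ a) := by
  have h1 : exp (-x) / (exp (-x) + exp (-y)) ≤ 9 * exp (-x) := by
    rw [div_le_iff₀ (by positivity)]
    have h2 : exp (-2) ≤ exp (-y) := exp_le_exp.2 (by linarith)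
    have h3 : exp (-2) * exp 2 = 1 := by rw [← exp_add]; simp
    have h4 := exp_two_le
    have h5 := exp_pos (-2)
    have h6 := exp_pos (-x)
    have h7 : 1 ≤ 9 * exp (-y) := by nlinarith
    nlinarith
  have h2 : y ^ b ≤ 2 ^ b := pow_le_pow_left₀ hy0 hy b
  have h3 := pow_mul_exp_neg_le hx a
  calc x ^ a * y ^ b * (exp (-x) / (exp (-x) + exp (-y)))
      ≤ x ^ a * 2 ^ b * (9 * exp (-x)) := by gcongr
    _ = 9 * (2 ^ b * (x ^ a * exp (-x))) := by ring
    _ ≤ _ := by gcongr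

def Mono.bd (p : Mono) : ℕ :=
  p.1.num.natAbs * (9 * (2 ^ p.2.2.1 * p.2.1 ^ p.2.1) + 9 * (2 ^ p.2.1 * p.2.2.1 ^ p.2.2.1))

theorem Mono.abs_val_le (p : Mono) (hp : 1 ≤ p.2.2.2.1 ∧ 1 ≤ p.2.2.2.2) {u : ℝ} (h0 : 0 < u)
    (h1 : u < 1) : |p.val u| ≤ p.bd := by
  obtain ⟨c, a, b, m, l⟩ := p
  have h2 : 0 < 1 - u := by linarith
  have s0 := Real.smoothTransition.nonneg u
  have s1 := Real.smoothTransition.le_one u
  have t0 : 0 ≤ 1 - S u := by linarith
  have t1 : 1 - S u ≤ 1 := by linarith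
  simp only [Mono.val, Mono.bd] at hp ⊢
  rw [mul_assoc, abs_mul, abs_of_nonneg (by positivity :
    0 ≤ u⁻¹ ^ a * (1 - u)⁻¹ ^ b * (S u ^ m * (1 - S u) ^ l))]
  push_cast
  refine mul_le_mul (abs_cast_le c) ?_ (by positivity) (by positivity)
  have hm : S u ^ m ≤ S u := pow_le_of_le_one s0 s1 (by omega)
  have hl : (1 - S u) ^ l ≤ 1 - S u := pow_le_of_le_one t0 t1 (by omega)
  have hm' : S u ^ m ≤ 1 := pow_le_one₀ s0 s1
  have hl' : (1 - S u) ^ l ≤ 1 := pow_le_one₀ t0 t1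
  rcases le_total u (1 / 2) with hu | hu
  · have hy : (1 - u)⁻¹ ≤ 2 := by rw [inv_le_comm₀ h2 (by norm_num)]; linarith
    have := core_bound (x := u⁻¹) (by positivity) (by positivity) hy a b
    rw [← S_eq h0 h1] at this
    calc u⁻¹ ^ a * (1 - u)⁻¹ ^ b * (S u ^ m * (1 - S u) ^ l)
        ≤ u⁻¹ ^ a * (1 - u)⁻¹ ^ b * (S u * 1) := by gcongr
      _ ≤ _ := by
        rw [mul_one]
        refine this.trans (le_add_of_nonneg_right (by positivity))
  · have hy : u⁻¹ ≤ 2 := by rw [inv_le_comm₀ h0 (by norm_num)]; linarith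
    have := core_bound (x := (1 - u)⁻¹) (by positivity) (by positivity) hy b a
    have e : exp (-(1 - u)⁻¹) / (exp (-(1 - u)⁻¹) + exp (-u⁻¹)) = 1 - S u := by
      rw [S_eq h0 h1]; field_simp; ring
    rw [e] at this
    calc u⁻¹ ^ a * (1 - u)⁻¹ ^ b * (S u ^ m * (1 - S u) ^ l)
        ≤ u⁻¹ ^ a * (1 - u)⁻¹ ^ b * (1 * (1 - S u)) := by gcongr
      _ ≤ _ := by
        rw [one_mul, mul_comm (u⁻¹ ^ a)]
        refine this.trans (le_add_of_nonneg_left (by positivity))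

theorem exists_bound_S : ∃ B : ℕ → ℕ, Primrec B ∧ ∀ k u, |iteratedDeriv k S u| ≤ B k := by
  have h1 := primrec_QQ
  have h2 : Primrec Mono.bd := by unfold Mono.bd; fun_prop
  refine ⟨fun k => ((QQ (k - 1)).map Mono.bd).sum + 1, by fun_prop, fun k u => ?_⟩
  cases k with
  | zero =>
    rw [iteratedDeriv_zero, abs_of_nonneg (Real.smoothTransition.nonneg u)]
    simp only [Nat.cast_add, Nat.cast_one]
    exact (Real.smoothTransition.le_one u).trans (le_add_of_nonneg_left (Nat.cast_nonneg _))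
  | succ k =>
    by_cases hu : 0 < u ∧ u < 1
    · rw [iteratedDeriv_S_in k hu.1 hu.2]
      simp only [Nat.add_sub_cancel, Nat.cast_add]
      refine le_trans ?_ (le_add_of_nonneg_right (by positivity))
      have := QQ_inv k
      unfold polyVal
      generalize QQ k = P at this
      induction P with
      | nil => simp
      | cons p P ih =>
        simp only [List.map_cons, List.sum_cons, Nat.cast_add]
        refine (abs_add_le _ _).trans (add_le_add ?_ (ih fun q hq => this q (List.mem_cons_of_mem _ hq)))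
        exact p.abs_val_le (this p List.mem_cons_self) hu.1 hu.2
    · rw [iteratedDeriv_S_out k hu, abs_zero]; positivity

theorem creal_S : CReal fun q : ℚ => S q := by
  have hr : Primrec fun q : ℚ => q⁻¹ - (1 - q)⁻¹ := by fun_prop
  have h1 : CReal fun q : ℚ => (1 + exp (-((if 0 ≤ q⁻¹ - (1 - q)⁻¹ then q⁻¹ - (1 - q)⁻¹
      else -(q⁻¹ - (1 - q)⁻¹) : ℚ) : ℝ)))⁻¹ :=
    (CReal.expNeg (by fun_prop) fun q => by split_ifs with h <;> linarith).inv_one_add
      fun _ => (exp_pos _).le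
  have h2 := CReal.ite (c := fun q : ℚ => 0 ≤ q⁻¹ - (1 - q)⁻¹) (by fun_prop)
    ((CReal.ofRat (pr_const 1)).sub h1) h1
  have h3 := CReal.ite (c := fun q : ℚ => 1 ≤ q) (by fun_prop) (CReal.ofRat (pr_const 1)) h2
  have h4 := CReal.ite (c := fun q : ℚ => q ≤ 0) (by fun_prop) (CReal.ofRat (pr_const 0)) h3
  refine h4.of_eq fun q => ?_
  by_cases q0 : q ≤ 0
  · rw [if_pos q0, Real.smoothTransition.zero_of_nonpos (by exact_mod_cast q0)]; simp
  rw [if_neg q0]
  by_cases q1 : 1 ≤ q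
  · rw [if_pos q1, Real.smoothTransition.one_of_one_le (by exact_mod_cast q1)]; simp
  rw [if_neg q1, S_eq (by exact_mod_cast not_le.1 q0) (by exact_mod_cast not_le.1 q1)]
  have ea := exp_pos (-(q : ℝ)⁻¹)
  have eb := exp_pos (-(1 - (q : ℝ))⁻¹)
  split_ifs with h
  · push_cast
    have : exp (-((q : ℝ)⁻¹ - (1 - (q : ℝ))⁻¹)) = exp (-(q : ℝ)⁻¹) / exp (-(1 - (q : ℝ))⁻¹) := by
      rw [← exp_sub]; congr 1; ring
    rw [this]; field_simp; ring
  · push_cast
    have : exp (-(-((q : ℝ)⁻¹ - (1 - (q : ℝ))⁻¹))) = exp (-(1 - (q : ℝ))⁻¹) / exp (-(q : ℝ)⁻¹) := by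
      rw [← exp_sub]; congr 1; ring
    rw [this]; field_simp

theorem creal_iteratedDeriv_S : CReal fun p : ℕ × ℚ => iteratedDeriv p.1 S p.2 := by
  have h0 := primrec_QQ
  have hS : CReal fun p : (ℕ × ℚ) × Mono => S p.1.2 := creal_S.comp (by fun_prop)
  have h1 : CReal fun p : (ℕ × ℚ) × Mono => p.2.val p.1.2 := by
    have h2 : CReal fun p : (ℕ × ℚ) × Mono =>
        ((p.2.1 * (p.1.2⁻¹ ^ p.2.2.1 * (1 - p.1.2)⁻¹ ^ p.2.2.2.1) : ℚ) : ℝ) :=
      CReal.ofRat (by fun_prop)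
    refine (h2.mul ((hS.pow (m := fun p => p.2.2.2.2.1) (by fun_prop)).mul
      (((CReal.ofRat (pr_const 1)).sub hS).pow (m := fun p => p.2.2.2.2.2) (by fun_prop)))).of_eq
      fun p => ?_
    unfold Mono.val
    push_cast; ring
  have h2 := CReal.listSum (l := fun p : ℕ × ℚ => QQ (p.1 - 1)) (by fun_prop) h1
  have h3 := CReal.ite (c := fun p : ℕ × ℚ => 0 < p.2 ∧ p.2 < 1) (by fun_prop) h2
    (CReal.ofRat (pr_const 0))
  have h4 := CReal.ite (c := fun p : ℕ × ℚ => p.1 = 0) (by fun_prop)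
    (creal_S.comp (g := fun p : ℕ × ℚ => p.2) (by fun_prop)) h3
  refine h4.of_eq ?_
  rintro ⟨k, q⟩
  cases k with
  | zero => simp
  | succ k =>
    simp only [Nat.add_eq_zero_iff, one_ne_zero, and_false, if_false, Nat.add_sub_cancel]
    split_ifs with h
    · rw [iteratedDeriv_S_in k (by exact_mod_cast h.1) (by exact_mod_cast h.2)]; rfl
    · rw [iteratedDeriv_S_out k (by exact_mod_cast h)]; simp

end Crest.Agent.R126
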