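import Mathlib
import Crest.Prelude.Def_BoxFlow
import Crest.Agent.R126.Trans

/-! Effective smooth scalar functions on space-time. -/

set_option autoImplicit false

namespace Crest.Agent.R126

open Crest.Agent.PrimrecRat Real Filter Topology Set Crest.AnalysisR.BoxFlow
open scoped ContDiff

/-- space-time -/
abbrev P4 : Type := ℝ × (Fin 3 → ℝ)

/-- directional derivative of a scalar function -/
noncomputable def D (d : Fin 4) (f : P4 → ℝ) : P4 → ℝ := fun p => fderiv ℝ f p (direction d)

/-- mixed derivative of a scalar function -/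
noncomputable def mD : List (Fin 4) → (P4 → ℝ) → P4 → ℝ
  | [], f => f
  | d :: ds, f => D d (mD ds f)

/-- a rational space-time point -/
def rp (q : ℚ × (Fin 3 → ℚ)) : P4 := ((q.1 : ℝ), ratPoint q.2)

theorem contDiff_D {f : P4 → ℝ} (hf : ContDiff ℝ ∞ f) (d : Fin 4) : ContDiff ℝ ∞ (D d f) := by
  unfold D
  exact (hf.fderiv_right (m := ∞) (by simp)).clm_apply contDiff_const

theorem contDiff_mD {f : P4 → ℝ} (hf : ContDiff ℝ ∞ f) : ∀ ds, ContDiff ℝ ∞ (mD ds f)
  | [] => hf
  | d :: ds => contDiff_D (contDiff_mD hf ds) d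

theorem diffAt {f : P4 → ℝ} (hf : ContDiff ℝ ∞ f) (p : P4) : DifferentiableAt ℝ f p :=
  hf.differentiable (by simp) p

theorem D_add {f g : P4 → ℝ} {p : P4} (hf : DifferentiableAt ℝ f p) (hg : DifferentiableAt ℝ g p)
    (d : Fin 4) : D d (fun p => f p + g p) p = D d f p + D d g p := by
  unfold D
  rw [fderiv_fun_add hf hg]; rfl

theorem D_mul {f g : P4 → ℝ} {p : P4} (hf : DifferentiableAt ℝ f p) (hg : DifferentiableAt ℝ g p)
    (d : Fin 4) : D d (fun p => f p * g p) p = D d f p * g p + f p * D d g p := by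
  unfold D
  rw [fderiv_fun_mul hf hg]
  simp only [add_apply, smul_apply, smul_eq_mul]
  ring

theorem D_const (c : ℝ) (d : Fin 4) : D d (fun _ => c) = fun _ => 0 := by
  funext p; unfold D; simp

theorem D_congr {f g : P4 → ℝ} {p : P4} (h : f =ᶠ[𝓝 p] g) (d : Fin 4) : D d f p = D d g p := by
  unfold D; rw [h.fderiv_eq]

theorem D_listSum {ι : Type*} (F : ι → P4 → ℝ) (hF : ∀ i, ContDiff ℝ ∞ (F i)) (d : Fin 4) :
    ∀ L : List ι, ContDiff ℝ ∞ (fun p => (L.map fun i => F i p).sum) ∧
      ∀ p, D d (fun p => (L.map fun i => F i p).sum) p = (L.map fun i => D d (F i) p).sum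
  | [] => by
    simp only [List.map_nil, List.sum_nil]
    exact ⟨contDiff_const, fun p => by rw [D_const]⟩
  | i :: L => by
    obtain ⟨h1, h2⟩ := D_listSum F hF d L
    simp only [List.map_cons, List.sum_cons]
    exact ⟨(hF i).add h1, fun p => by rw [D_add (diffAt (hF i) p) (diffAt h1 p), h2]⟩

theorem mD_add {f g : P4 → ℝ} (hf : ContDiff ℝ ∞ f) (hg : ContDiff ℝ ∞ g) :
    ∀ ds, mD ds (fun p => f p + g p) = fun p => mD ds f p + mD ds g p
  | [] => rfl
  | d :: ds => by
    funext p
    simp only [mD, mD_add hf hg ds]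
    exact D_add (diffAt (contDiff_mD hf ds) p) (diffAt (contDiff_mD hg ds) p) d

theorem mD_D (f : P4 → ℝ) (d : Fin 4) : ∀ ds, mD ds (D d f) = mD (ds ++ [d]) f
  | [] => rfl
  | e :: ds => by simp only [mD, List.cons_append, mD_D f d ds]

theorem mD_const (c : ℝ) : ∀ ds, mD ds (fun _ => c) = fun _ => if ds = [] then c else 0
  | [] => rfl
  | d :: ds => by simp only [mD, mD_const c ds, D_const]; simp

/-- all ways of distributing a list of derivatives over two factors -/
def splits (ds : List (Fin 4)) : List (List (Fin 4) × List (Fin 4)) :=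
  ds.foldr (fun d L => L.flatMap fun st => [(d :: st.1, st.2), (st.1, d :: st.2)]) [([], [])]

theorem primrec_splits : Primrec splits := by
  unfold splits
  exact pr_foldr (h := fun _ (d : Fin 4) (L : List (List (Fin 4) × List (Fin 4))) =>
      L.flatMap fun st => [(d :: st.1, st.2), (st.1, d :: st.2)])
    pr_id (pr_const _) (by fun_prop)

theorem mD_mul {f g : P4 → ℝ} (hf : ContDiff ℝ ∞ f) (hg : ContDiff ℝ ∞ g) :
    ∀ ds, mD ds (fun p => f p * g p) =
      fun p => ((splits ds).map fun st => mD st.1 f p * mD st.2 g p).sum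
  | [] => by funext p; simp [mD, splits]
  | d :: ds => by
    funext p
    simp only [mD, mD_mul hf hg ds]
    rw [(D_listSum (fun (st : List (Fin 4) × List (Fin 4)) p => mD st.1 f p * mD st.2 g p)
      (fun st => (contDiff_mD hf _).mul (contDiff_mD hg _)) d (splits ds)).2 p]
    have e : splits (d :: ds) =
        (splits ds).flatMap fun st => [(d :: st.1, st.2), (st.1, d :: st.2)] := rfl
    rw [e]
    induction splits ds with
    | nil => simp
    | cons st L ih =>
      simp only [List.map_cons, List.sum_cons, List.flatMap_cons, List.map_append, List.sum_append,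
        ih, List.map_nil, List.sum_nil, mD, add_zero]
      rw [D_mul (diffAt (contDiff_mD hf _) p) (diffAt (contDiff_mD hg _) p)]

/-- effective smooth functions (with computable bounds on balls) -/
structure Eff (f : P4 → ℝ) : Prop where
  smooth : ContDiff ℝ ∞ f
  approx : CReal fun a : List (Fin 4) × (ℚ × (Fin 3 → ℚ)) => mD a.1 f (rp a.2)
  bound : ∃ B : List (Fin 4) × ℕ → ℕ, Primrec B ∧
    ∀ (ds : List (Fin 4)) (R : ℕ) (p : P4), ‖p‖ ≤ R → |mD ds f p| ≤ B (ds, R)

theorem Eff.of_eq {f g : P4 → ℝ} (hf : Eff f) (h : ∀ p, f p = g p) : Eff g :=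
  (funext h : f = g) ▸ hf

theorem Eff.add {f g : P4 → ℝ} (hf : Eff f) (hg : Eff g) : Eff fun p => f p + g p := by
  obtain ⟨B, hB, hb⟩ := hf.bound
  obtain ⟨C, hC, hc⟩ := hg.bound
  refine ⟨hf.smooth.add hg.smooth, (hf.approx.add hg.approx).of_eq fun a => ?_,
    fun a => B a + C a, by fun_prop, fun ds R p hp => ?_⟩
  · rw [mD_add hf.smooth hg.smooth]
  · rw [mD_add hf.smooth hg.smooth]
    push_cast
    exact (abs_add_le _ _).trans (add_le_add (hb ds R p hp) (hc ds R p hp))

theorem Eff.mul {f g : P4 → ℝ} (hf : Eff f) (hg : Eff g) : Eff fun p => f p * g p := by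
  obtain ⟨B, hB, hb⟩ := hf.bound
  obtain ⟨C, hC, hc⟩ := hg.bound
  have hs := primrec_splits
  refine ⟨hf.smooth.mul hg.smooth, ?_,
    fun a => ((splits a.1).map fun st => B (st.1, a.2) * C (st.2, a.2)).sum, by fun_prop,
    fun ds R p hp => ?_⟩
  · have h1 : CReal fun a : (List (Fin 4) × (ℚ × (Fin 3 → ℚ))) × (List (Fin 4) × List (Fin 4)) =>
        mD a.2.1 f (rp a.1.2) * mD a.2.2 g (rp a.1.2) :=
      (hf.approx.comp (g := fun a : (List (Fin 4) × (ℚ × (Fin 3 → ℚ))) ×
        (List (Fin 4) × List (Fin 4)) => (a.2.1, a.1.2)) (by fun_prop)).mul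
      (hg.approx.comp (g := fun a : (List (Fin 4) × (ℚ × (Fin 3 → ℚ))) ×
        (List (Fin 4) × List (Fin 4)) => (a.2.2, a.1.2)) (by fun_prop))
    refine (CReal.listSum (l := fun a : List (Fin 4) × (ℚ × (Fin 3 → ℚ)) => splits a.1)
      (by fun_prop) h1).of_eq fun a => ?_
    rw [mD_mul hf.smooth hg.smooth]
  · rw [mD_mul hf.smooth hg.smooth]
    simp only
    induction splits ds with
    | nil => simp
    | cons st L ih =>
      simp only [List.map_cons, List.sum_cons, Nat.cast_add, Nat.cast_mul]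
      refine (abs_add_le _ _).trans (add_le_add ?_ ih)
      rw [abs_mul]
      exact mul_le_mul (hb _ R p hp) (hc _ R p hp) (abs_nonneg _) (Nat.cast_nonneg _)

theorem Eff.D {f : P4 → ℝ} (hf : Eff f) (d : Fin 4) : Eff (D d f) := by
  obtain ⟨B, hB, hb⟩ := hf.bound
  refine ⟨contDiff_D hf.smooth d,
    (hf.approx.comp (g := fun a : List (Fin 4) × (ℚ × (Fin 3 → ℚ)) => (a.1 ++ [d], a.2))
      (by fun_prop)).of_eq fun a => ?_,
    fun a => B (a.1 ++ [d], a.2), by fun_prop, fun ds R p hp => ?_⟩
  · rw [mD_D]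
  · rw [mD_D]; exact hb _ R p hp

theorem Eff.const {c : ℝ} (hc : CReal fun _ : List (Fin 4) × (ℚ × (Fin 3 → ℚ)) => c) :
    Eff fun _ => c := by
  refine ⟨contDiff_const, (CReal.ite (c := fun a : List (Fin 4) × (ℚ × (Fin 3 → ℚ)) => a.1 = [])
    (by fun_prop) hc (CReal.ofRat (pr_const 0))).of_eq fun a => ?_,
    fun _ => ⌈|c|⌉₊, by fun_prop, fun ds R p _ => ?_⟩
  · rw [mD_const]; simp
  · rw [mD_const]
    simp only
    split_ifs
    · exact Nat.le_ceil _
    · simp

theorem Eff.ratConst (c : ℚ) : Eff fun _ => (c : ℝ) := Eff.const (CReal.ofRat (pr_const c))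

theorem Eff.zero : Eff fun _ => 0 := (Eff.ratConst 0).of_eq fun _ => by simp

theorem Eff.neg {f : P4 → ℝ} (hf : Eff f) : Eff fun p => -f p :=
  ((Eff.ratConst (-1)).mul hf).of_eq fun p => by simp

theorem Eff.sub {f g : P4 → ℝ} (hf : Eff f) (hg : Eff g) : Eff fun p => f p - g p :=
  (hf.add hg.neg).of_eq fun p => by ring

theorem Eff.sum {ι : Type*} (s : Finset ι) {F : ι → P4 → ℝ} (hF : ∀ i ∈ s, Eff (F i)) :
    Eff fun p => ∑ i ∈ s, F i p := by
  classical
  induction s using Finset.induction_on with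
  | empty => simpa using Eff.zero
  | insert i s hi ih =>
    simp only [Finset.sum_insert hi]
    exact (hF i (Finset.mem_insert_self _ _)).add (ih fun j hj => hF j (Finset.mem_insert_of_mem hj))

theorem Eff.prod {ι : Type*} (s : Finset ι) {F : ι → P4 → ℝ} (hF : ∀ i ∈ s, Eff (F i)) :
    Eff fun p => ∏ i ∈ s, F i p := by
  classical
  induction s using Finset.induction_on with
  | empty => simpa using Eff.ratConst 1
  | insert i s hi ih =>
    simp only [Finset.prod_insert hi]
    exact (hF i (Finset.mem_insert_self _ _)).mul (ih fun j hj => hF j (Finset.mem_insert_of_mem hj))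

/-- coordinate functions on space-time -/
noncomputable def co (d : Fin 4) : P4 →L[ℝ] ℝ :=
  Fin.cases (ContinuousLinearMap.fst ℝ ℝ (Fin 3 → ℝ))
    (fun j => (ContinuousLinearMap.proj j).comp (ContinuousLinearMap.snd ℝ ℝ (Fin 3 → ℝ))) d

@[simp] theorem co_zero (p : P4) : co 0 p = p.1 := rfl
@[simp] theorem co_succ (j : Fin 3) (p : P4) : co j.succ p = p.2 j := rfl

theorem direction_zero : direction 0 = (1, 0) := rfl
theorem direction_succ (j : Fin 3) : direction j.succ = (0, Pi.single j 1) := by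
  unfold direction
  rw [dif_neg (Fin.succ_ne_zero j)]
  simp

theorem co_direction (d e : Fin 4) : co d (direction e) = if e = d then 1 else 0 := by
  refine Fin.cases ?_ (fun i => ?_) d <;> refine Fin.cases ?_ (fun j => ?_) e
  · simp [direction_zero]
  · simp [direction_succ, Fin.succ_ne_zero]
  · simp [direction_zero, (Fin.succ_ne_zero i).symm]
  · simp [direction_succ, Pi.single_apply, eq_comm]

theorem abs_co_le (d : Fin 4) (p : P4) : |co d p| ≤ ‖p‖ := by
  refine Fin.cases ?_ (fun i => ?_) d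
  · exact norm_fst_le p
  · exact (norm_le_pi_norm p.2 i).trans (norm_snd_le p)

/-- rational coordinates -/
def coQ (d : Fin 4) (q : ℚ × (Fin 3 → ℚ)) : ℚ := Fin.cases q.1 q.2 d

theorem primrec_coQ (d : Fin 4) : Primrec (coQ d) := by
  refine Fin.cases ?_ (fun i => ?_) d
  · exact Primrec.fst
  · exact (pr_apply i).comp Primrec.snd

theorem co_rp (d : Fin 4) (q : ℚ × (Fin 3 → ℚ)) : co d (rp q) = coQ d q := by
  refine Fin.cases ?_ (fun i => ?_) d <;> rfl

theorem D_comp_affine {φ : ℝ → ℝ} (hφ : Differentiable ℝ φ) (d e : Fin 4) (a b : ℝ) (p : P4) :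
    D e (fun p => φ (a * co d p + b)) p =
      (if e = d then a else 0) * deriv φ (a * co d p + b) := by
  unfold D
  have h1 : HasFDerivAt (fun p : P4 => a * co d p + b) (a • co d) p :=
    ((co d).hasFDerivAt.const_mul a).add_const b
  have h2 := (hφ (a * co d p + b)).hasDerivAt.comp_hasFDerivAt p h1
  rw [show (fun p => φ (a * co d p + b)) = φ ∘ fun p : P4 => a * co d p + b from rfl, h2.fderiv]
  simp only [smul_apply, smul_eq_mul, co_direction]
  split_ifs <;> ring

theorem mD_comp_affine {φ : ℝ → ℝ} (hφ : ContDiff ℝ ∞ φ) (d : Fin 4) (a b : ℚ) :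
    ∀ ds, mD ds (fun p => φ (a * co d p + b)) = fun p =>
      (((ds.map fun e => if e = d then a else 0).prod : ℚ) : ℝ) *
        iteratedDeriv ds.length φ (a * co d p + b)
  | [] => by funext p; simp [mD]
  | e :: ds => by
    funext p
    have h1 : Differentiable ℝ (iteratedDeriv ds.length φ) :=
      hφ.differentiable_iteratedDeriv _ (by exact_mod_cast ENat.natCast_lt_top _)
    simp only [mD, mD_comp_affine hφ d a b ds]
    rw [D_mul (differentiableAt_const _) (by fun_prop), D_const, D_comp_affine h1,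
      List.length_cons, iteratedDeriv_succ, List.map_cons, List.prod_cons]
    split_ifs <;> push_cast <;> ring

theorem eff_comp_affine {φ : ℝ → ℝ} (hφ : ContDiff ℝ ∞ φ)
    (h1 : CReal fun p : ℕ × ℚ => iteratedDeriv p.1 φ p.2)
    (h2 : ∃ B : ℕ × ℕ → ℕ, Primrec B ∧ ∀ (k R : ℕ) (u : ℝ), |u| ≤ R → |iteratedDeriv k φ u| ≤ B (k, R))
    (d : Fin 4) (a b : ℚ) : Eff fun p => φ (a * co d p + b) := by
  obtain ⟨B, hB, hb⟩ := h2
  have hq := primrec_coQ d
  refine ⟨hφ.comp ((contDiff_const.mul (co d).contDiff).add contDiff_const), ?_,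
    fun x => ((x.1.map fun e => if e = d then a else 0).prod).num.natAbs *
      B (x.1.length, a.num.natAbs * x.2 + b.num.natAbs), by fun_prop, fun ds R p hp => ?_⟩
  · refine ((CReal.ofRat (q := fun x : List (Fin 4) × (ℚ × (Fin 3 → ℚ)) =>
      (x.1.map fun e => if e = d then a else 0).prod) (by fun_prop)).mul
      (h1.comp (g := fun x : List (Fin 4) × (ℚ × (Fin 3 → ℚ)) => (x.1.length, a * coQ d x.2 + b))
        (by fun_prop))).of_eq fun x => ?_
    rw [mD_comp_affine hφ]
    simp only [co_rp]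
    push_cast
    rfl
  · rw [mD_comp_affine hφ]
    simp only
    rw [abs_mul, Nat.cast_mul]
    refine mul_le_mul (abs_cast_le _) (hb _ _ _ ?_) (abs_nonneg _) (Nat.cast_nonneg _)
    refine (abs_add_le _ _).trans ?_
    rw [abs_mul, Nat.cast_add, Nat.cast_mul]
    exact add_le_add (mul_le_mul (abs_cast_le a) ((abs_co_le d p).trans hp) (abs_nonneg _)
      (Nat.cast_nonneg _)) (abs_cast_le b)

theorem eff_S (d : Fin 4) (a b : ℚ) : Eff fun p => Real.smoothTransition (a * co d p + b) := by
  obtain ⟨B, hB, hb⟩ := exists_bound_S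
  exact eff_comp_affine Real.smoothTransition.contDiff creal_iteratedDeriv_S
    ⟨fun x => B x.1, by fun_prop, fun k _ u _ => hb k u⟩ d a b

theorem iteratedDeriv_id' (k : ℕ) (x : ℝ) :
    iteratedDeriv k (fun x : ℝ => x) x = if k = 0 then x else if k = 1 then 1 else 0 := by
  cases k with
  | zero => simp
  | succ k =>
    rw [iteratedDeriv_succ']
    have : deriv (fun x : ℝ => x) = fun _ => 1 := by funext y; simp
    rw [this, iteratedDeriv_const]
    simp

theorem eff_affine (d : Fin 4) (a b : ℚ) : Eff fun p => a * co d p + b := by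
  refine eff_comp_affine (φ := fun x => x) contDiff_id ?_
    ⟨fun x => x.2 + 1, by fun_prop, fun k R u hu => ?_⟩ d a b
  · refine (CReal.ofRat (q := fun p : ℕ × ℚ => if p.1 = 0 then p.2 else if p.1 = 1 then 1 else 0)
      (by fun_prop)).of_eq fun p => ?_
    rw [iteratedDeriv_id']
    split_ifs <;> simp
  · rw [iteratedDeriv_id']
    have : (0 : ℝ) ≤ R := Nat.cast_nonneg _
    push_cast
    split_ifs
    · linarith
    · simp
    · simp; linarith

theorem mixedDeriv_apply {U : Field} (hU : ContDiff ℝ ∞ U) :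
    ∀ ds, ContDiff ℝ ∞ (mixedDeriv ds U) ∧ ∀ p j, mixedDeriv ds U p j = mD ds (fun p => U p j) p
  | [] => ⟨hU, fun _ _ => rfl⟩
  | d :: ds => by
    obtain ⟨h1, h2⟩ := mixedDeriv_apply hU ds
    refine ⟨(h1.fderiv_right (m := ∞) (by simp)).clm_apply contDiff_const, fun p j => ?_⟩
    simp only [mixedDeriv, mD, D]
    have e : mD ds (fun p => U p j) = fun p => mixedDeriv ds U p j := by
      funext p; exact (h2 p j).symm
    rw [e, fderiv_apply (h1.differentiable (by simp) p) j]
    rfl

theorem hasCompactSupport_mD {f : P4 → ℝ} : ∀ ds, tsupport (mD ds f) ⊆ tsupport f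
  | [] => subset_rfl
  | d :: ds => by
    refine subset_trans ?_ (hasCompactSupport_mD ds)
    simp only [mD]
    exact tsupport_fderiv_apply_subset ℝ (direction d)

theorem effective_of_eff {U : Field} (hU : ∀ j, Eff fun p => U p j) (hc : HasCompactSupport U) :
    ContDiff ℝ ∞ U ∧ Effective U := by
  have hs : ContDiff ℝ ∞ U := contDiff_pi.2 fun j => (hU j).smooth
  refine ⟨hs, ?_⟩
  choose E hE hEa using fun j => (hU j).approx
  choose B hB hBb using fun j => (hU j).bound
  obtain ⟨R0, hR0⟩ := hc.isCompact.isBounded.exists_norm_le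
  obtain ⟨R, hR⟩ := exists_nat_ge R0
  refine ⟨fun x j => E j ((x.1, x.2.1), x.2.2), fun ds => B 0 (ds, R) + B 1 (ds, R) + B 2 (ds, R),
    Primrec.to_comp (pr_fin_pi fun j => ?_), Primrec.to_comp ?_, fun ds t q n j => ?_,
    fun ds p j => ?_⟩
  · have := hE j; fun_prop
  · have h0 := hB 0
    have h1 := hB 1
    have h2 := hB 2
    fun_prop
  · rw [(mixedDeriv_apply hs ds).2]
    exact hEa j (ds, (t, q)) n
  · rw [(mixedDeriv_apply hs ds).2]
    by_cases hp : p ∈ tsupport U
    · refine (hBb j ds R p ((hR0 p hp).trans hR)).trans ?_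
      have : B j (ds, R) ≤ B 0 (ds, R) + B 1 (ds, R) + B 2 (ds, R) := by
        fin_cases j <;> simp <;> omega
      exact_mod_cast this
    · have h1 : tsupport (fun p => U p j) ⊆ tsupport U :=
        closure_mono fun p hp h => hp (by simp only [h]; rfl)
      have h2 : p ∉ tsupport (mD ds fun p => U p j) := fun h => hp (h1 (hasCompactSupport_mD ds h))
      rw [image_eq_zero_of_notMem_tsupport h2, abs_zero]
      exact Nat.cast_nonneg _

end Crest.Agent.R126
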