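import Mathlib
import Crest.Agent.R126.Eff

/-! Good fields, their flows, and the reachability relation. -/

set_option autoImplicit false

namespace Crest.Agent.R126

open Real Filter Topology Set Crest.AnalysisR.BoxFlow
open scoped ContDiff

theorem exists_curve {U : Field} (hs : ContDiff ℝ ∞ U) (hc : HasCompactSupport U)
    (ht : ∀ p : P4, p.1 ∉ Ioo (1 / 4 : ℝ) (3 / 4) → U p = 0) (x : Fin 3 → ℝ) :
    ∃ γ : ℝ → Fin 3 → ℝ, γ 0 = x ∧ ∀ t, HasDerivAt γ (U (t, γ t)) t := by
  obtain ⟨K, hK⟩ := hs.lipschitzWith_of_hasCompactSupport hc (by simp)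
  obtain ⟨C, hC⟩ := hc.exists_bound_of_continuous hs.continuous
  have hC0 : 0 ≤ C := (norm_nonneg _).trans (hC 0)
  have hpl : IsPicardLindelof (fun t y => U (t, y)) (tmin := 0) (tmax := 1) ⟨0, by simp⟩ x
      ⟨C, hC0⟩ 0 ⟨C, hC0⟩ (K * 1) := by
    refine ⟨fun t _ => (hK.comp (LipschitzWith.prodMk_left t)).lipschitzOnWith, fun y _ => ?_,
      fun t _ y _ => hC _, by simp⟩
    exact (hs.continuous.comp (by fun_prop : Continuous fun t : ℝ => (t, y))).continuousOn
  obtain ⟨α, hα0, hα⟩ := hpl.exists_eq_forall_mem_Icc_hasDerivWithinAt₀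
  simp only at hα0 hα
  have hcont : ContinuousOn α (Icc 0 1) := fun t ht => (hα t ht).continuousWithinAt
  have hconst : ∀ a b : ℝ, 0 ≤ a → b ≤ 1 → (∀ t ∈ Ico a b, t ∉ Ioo (1 / 4 : ℝ) (3 / 4)) →
      ∀ t ∈ Icc a b, α t = α a := by
    intro a b ha hb hab
    refine constant_of_has_deriv_right_zero (hcont.mono (Icc_subset_Icc ha hb)) fun t htt => ?_
    have h1 := hα t ⟨ha.trans htt.1, htt.2.le.trans hb⟩
    rw [ht (t, α t) (hab t htt)] at h1
    exact h1.mono_of_mem_nhdsWithin (Icc_mem_nhdsGE_of_mem ⟨ha.trans htt.1, htt.2.trans_le hb⟩)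
  have h1 := hconst 0 (1 / 4) le_rfl (by norm_num) fun t htt h => by linarith [htt.2, h.1]
  have h2 := hconst (3 / 4) 1 (by norm_num) le_rfl fun t htt h => by linarith [htt.1, h.2]
  refine ⟨fun t => α (max 0 (min t 1)), by simpa using hα0, fun t => ?_⟩
  rcases lt_or_ge t (1 / 4) with h | h
  · rw [ht _ (fun h' => by simp only at h'; linarith [h'.1])]
    refine (hasDerivAt_const t (α 0)).congr_of_eventuallyEq ?_
    filter_upwards [Iio_mem_nhds h] with s hs
    exact h1 _ ⟨le_max_left _ _, max_le (by norm_num) ((min_le_left _ _).trans (le_of_lt hs))⟩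
  rcases lt_or_ge (3 / 4) t with h' | h'
  · rw [ht _ (fun h'' => by simp only at h''; linarith [h''.2])]
    refine (hasDerivAt_const t (α (3 / 4))).congr_of_eventuallyEq ?_
    filter_upwards [Ioi_mem_nhds h'] with s hs
    exact h2 _ ⟨le_max_of_le_right (le_min (le_of_lt hs) (by norm_num)),
      max_le (by norm_num) (min_le_right _ _)⟩
  have h3 : 0 < t := by linarith
  have h4 : t < 1 := by linarith
  have e : (fun t => α (max 0 (min t 1))) =ᶠ[𝓝 t] α := by
    filter_upwards [Ioo_mem_nhds h3 h4] with s hs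
    rw [min_eq_left hs.2.le, max_eq_right hs.1.le]
  simp only [min_eq_left h4.le, max_eq_right h3.le]
  exact ((hα t ⟨h3.le, h4.le⟩).hasDerivAt (Icc_mem_nhds h3 h4)).congr_of_eventuallyEq e

theorem exists_flow {U : Field} (hs : ContDiff ℝ ∞ U) (hc : HasCompactSupport U)
    (ht : ∀ p : P4, p.1 ∉ Ioo (1 / 4 : ℝ) (3 / 4) → U p = 0) :
    ∃ Φ, IsFlow U Φ ∧ ∀ (x : Fin 3 → ℝ) (γ : ℝ → Fin 3 → ℝ), γ 0 = x →
      (∀ t, HasDerivAt γ (U (t, γ t)) t) → Φ 1 x = γ 1 := by
  choose Γ hΓ0 hΓ using exists_curve hs hc ht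
  obtain ⟨K, hK⟩ := hs.lipschitzWith_of_hasCompactSupport hc (by simp)
  refine ⟨fun t x => Γ x t, ⟨hΓ0, fun t x => hΓ x t⟩, fun x γ h0 hγ => ?_⟩
  have := ODE_solution_unique_univ (v := fun t y => U (t, y)) (s := fun _ => univ) (K := K * 1)
    (f := Γ x) (g := γ) (t₀ := 0)
    (fun t => (hK.comp (LipschitzWith.prodMk_left t)).lipschitzOnWith)
    (fun t => ⟨hΓ x t, trivial⟩) (fun t => ⟨hγ t, trivial⟩) (by rw [hΓ0, h0])
  exact congrFun this 1

/-- effective, compactly supported, divergence free, active only in the time interval `(s, s')` -/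
structure Good (s s' : ℝ) (U : Field) : Prop where
  eff : ∀ j, Eff fun p => U p j
  supp : HasCompactSupport U
  time : ∀ p : P4, p.1 ∉ Ioo s s' → U p = 0
  div : ∀ p, ∑ j : Fin 3, D j.succ (fun p => U p j) p = 0

theorem Good.zero (s s' : ℝ) : Good s s' (fun _ => 0) :=
  ⟨fun _ => Eff.zero, HasCompactSupport.zero, fun _ _ => rfl, fun p => by simp [D_const]⟩

theorem Good.add {s s' : ℝ} {U V : Field} (hU : Good s s' U) (hV : Good s s' V) :
    Good s s' (fun p => U p + V p) := by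
  refine ⟨fun j => (hU.eff j).add (hV.eff j), hU.supp.add hV.supp, fun p hp => ?_, fun p => ?_⟩
  · rw [hU.time p hp, hV.time p hp, add_zero]
  · simp only [Pi.add_apply]
    rw [Finset.sum_congr rfl fun j _ =>
      D_add (diffAt (hU.eff j).smooth p) (diffAt (hV.eff j).smooth p) j.succ,
      Finset.sum_add_distrib, hU.div, hV.div, add_zero]

theorem Good.mono {s s' r r' : ℝ} {U : Field} (hU : Good s s' U) (h1 : r ≤ s) (h2 : s' ≤ r') :
    Good r r' U :=
  ⟨hU.eff, hU.supp, fun p hp => hU.time p fun h => hp (Ioo_subset_Ioo h1 h2 h), hU.div⟩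

theorem Good.sum {s s' : ℝ} {ι : Type*} (T : Finset ι) {F : ι → Field}
    (hF : ∀ i ∈ T, Good s s' (F i)) : Good s s' fun p => ∑ i ∈ T, F i p := by
  classical
  induction T using Finset.induction_on with
  | empty => simpa using Good.zero s s'
  | insert i T hi ih =>
    simp only [Finset.sum_insert hi]
    exact (hF i (Finset.mem_insert_self _ _)).add (ih fun j hj => hF j (Finset.mem_insert_of_mem hj))

theorem Good.spaceDiv {s s' : ℝ} {U : Field} (hU : Good s s' U) (p : P4) : spaceDiv U p = 0 := by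
  have hs : ContDiff ℝ ∞ U := contDiff_pi.2 fun j => (hU.eff j).smooth
  rw [← hU.div p]
  unfold Crest.AnalysisR.BoxFlow.spaceDiv
  refine Finset.sum_congr rfl fun j _ => ?_
  unfold D
  rw [direction_succ, fderiv_apply (hs.differentiable (by simp) p) j]
  rfl

theorem D_comm {f : P4 → ℝ} (hf : ContDiff ℝ ∞ f) (d e : Fin 4) (p : P4) :
    D d (D e f) p = D e (D d f) p := by
  have h1 : DifferentiableAt ℝ (fderiv ℝ f) p :=
    (hf.fderiv_right (m := ∞) (by simp)).differentiable (by simp) p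
  have h2 : ∀ d e, D d (D e f) p = fderiv ℝ (fderiv ℝ f) p (direction d) (direction e) := by
    intro d e
    unfold D
    rw [fderiv_clm_apply h1 (differentiableAt_const _)]
    simp
  rw [h2, h2]
  refine (hf.contDiffAt.isSymmSndFDerivAt ?_).eq _ _
  rw [minSmoothness_of_isRCLikeNormedField]
  exact WithTop.coe_le_coe.2 (le_top : (2 : ℕ∞) ≤ ⊤)

/-- planar Hamiltonian field of a stream function -/
noncomputable def Ham (a b : Fin 3) (ψ : P4 → ℝ) : Field := fun p j =>
  (if j = a then D b.succ ψ p else 0) - (if j = b then D a.succ ψ p else 0)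

theorem Ham_congr {a b : Fin 3} {ψ ψ' : P4 → ℝ} {p : P4} (h : ψ =ᶠ[𝓝 p] ψ') :
    Ham a b ψ p = Ham a b ψ' p := by
  funext j; unfold Ham; rw [D_congr h, D_congr h]

theorem Ham_zero (a b : Fin 3) (p : P4) : Ham a b (fun _ => 0) p = 0 := by
  funext j; unfold Ham; simp [D_const]

theorem Ham_time_mul {a b : Fin 3} {β ψ : P4 → ℝ} (hβ : ContDiff ℝ ∞ β) (hψ : ContDiff ℝ ∞ ψ)
    (h0 : ∀ (j : Fin 3) p, D j.succ β p = 0) (p : P4) :
    Ham a b (fun p => β p * ψ p) p = β p • Ham a b ψ p := by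
  funext j
  unfold Ham
  rw [D_mul (diffAt hβ p) (diffAt hψ p), D_mul (diffAt hβ p) (diffAt hψ p), h0, h0]
  simp only [Pi.smul_apply, smul_eq_mul]
  split_ifs <;> ring

theorem good_Ham {s s' : ℝ} (a b : Fin 3) {ψ : P4 → ℝ} (hψ : Eff ψ) (hc : HasCompactSupport ψ)
    (ht : ∀ p : P4, p.1 ∉ Ioo s s' → Ham a b ψ p = 0) : Good s s' (Ham a b ψ) := by
  have hite : ∀ (c : Prop) [Decidable c] (d : Fin 4), Eff fun p => if c then D d ψ p else 0 := by
    intro c _ d
    split_ifs
    · exact hψ.D d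
    · exact Eff.zero
  refine ⟨fun j => (hite _ _).sub (hite _ _), ?_, ht, fun p => ?_⟩
  · refine hc.mono' fun p hp => ?_
    by_contra h
    apply hp
    rw [Ham_congr (notMem_tsupport_iff_eventuallyEq.1 h)]
    exact Ham_zero a b p
  · have e : ∀ j : Fin 3, D j.succ (fun p => Ham a b ψ p j) p =
        (if j = a then D j.succ (D b.succ ψ) p else 0) -
          (if j = b then D j.succ (D a.succ ψ) p else 0) := by
      intro j
      have h1 := D_add (diffAt (hite (j = a) b.succ).smooth p)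
        (diffAt (hite (j = b) a.succ).neg.smooth p) j.succ
      have h2 : D j.succ (fun p => -(if j = b then D a.succ ψ p else 0)) p =
          -(if j = b then D j.succ (D a.succ ψ) p else 0) := by
        split_ifs
        · unfold D; rw [fderiv_fun_neg]; rfl
        · simp [D_const]
      have h3 : D j.succ (fun p => if j = a then D b.succ ψ p else 0) p =
          (if j = a then D j.succ (D b.succ ψ) p else 0) := by
        split_ifs
        · rfl
        · simp [D_const]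
      simp only [Ham, sub_eq_add_neg]
      rw [h1, h2, h3]
    simp only [e, Finset.sum_sub_distrib, Finset.sum_ite_eq', Finset.mem_univ, if_true]
    rw [D_comm hψ.smooth, sub_self]

/-- in every rational time interval some good field carries a neighbourhood of each `K i` by `A i` -/
def Reach {n : ℕ} (K : Fin n → Set (Fin 3 → ℝ)) (A : Fin n → (Fin 3 → ℝ) → (Fin 3 → ℝ)) : Prop :=
  ∀ s s' : ℚ, s < s' → ∃ U : Field, Good s s' U ∧ ∀ i, ∃ O, IsOpen O ∧ K i ⊆ O ∧ ∀ x ∈ O,
    ∃ γ : ℝ → Fin 3 → ℝ, (∀ t, HasDerivAt γ (U (t, γ t)) t) ∧ (∀ t : ℝ, t ≤ s → γ t = x) ∧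
      ∀ t : ℝ, s' ≤ t → γ t = A i x

theorem Reach.refl {n : ℕ} (K : Fin n → Set (Fin 3 → ℝ)) : Reach K fun _ x => x :=
  fun s s' _ => ⟨fun _ => 0, Good.zero s s', fun _ => ⟨univ, isOpen_univ, subset_univ _,
    fun x _ => ⟨fun _ => x, fun t => hasDerivAt_const t x, fun _ _ => rfl, fun _ _ => rfl⟩⟩⟩

theorem Reach.of_eq {n : ℕ} {K : Fin n → Set (Fin 3 → ℝ)}
    {A A' : Fin n → (Fin 3 → ℝ) → (Fin 3 → ℝ)} (h : Reach K A) (e : ∀ i x, A i x = A' i x) :
    Reach K A' := (funext₂ e : A = A') ▸ h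

theorem Reach.trans {n : ℕ} {K K' : Fin n → Set (Fin 3 → ℝ)}
    {A A' : Fin n → (Fin 3 → ℝ) → (Fin 3 → ℝ)} (h : Reach K A) (h' : Reach K' A')
    (hA : ∀ i, Continuous (A i)) (hK : ∀ i, MapsTo (A i) (K i) (K' i)) :
    Reach K fun i x => A' i (A i x) := by
  intro s s' hs
  obtain ⟨U, hU, hO⟩ := h s ((s + s') / 2) (by linarith)
  obtain ⟨V, hV, hO'⟩ := h' ((s + s') / 2) s' (by linarith)
  have hs' : (s : ℝ) < s' := by exact_mod_cast hs
  set m : ℝ := (((s + s') / 2 : ℚ) : ℝ) with hm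
  have hm1 : (s : ℝ) ≤ m := by rw [hm]; push_cast; linarith
  have hm2 : m ≤ (s' : ℝ) := by rw [hm]; push_cast; linarith
  refine ⟨fun p => U p + V p, (hU.mono le_rfl hm2).add (hV.mono hm1 le_rfl), fun i => ?_⟩
  obtain ⟨O, hO1, hO2, hO3⟩ := hO i
  obtain ⟨O', hO1', hO2', hO3'⟩ := hO' i
  refine ⟨O ∩ A i ⁻¹' O', hO1.inter (hO1'.preimage (hA i)),
    fun x hx => ⟨hO2 hx, hO2' (hK i hx)⟩, fun x hx => ?_⟩
  obtain ⟨γ, g1, g2, g3⟩ := hO3 x hx.1
  obtain ⟨δ, d1, d2, d3⟩ := hO3' (A i x) hx.2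
  refine ⟨fun t => γ t + δ t - A i x, fun t => ?_, fun t ht => ?_, fun t ht => ?_⟩
  · refine HasDerivAt.congr_deriv (((g1 t).add (d1 t)).sub_const (A i x)) ?_
    rcases le_total t m with h | h
    · have e1 : ∀ y, V (t, y) = 0 := fun y => hV.time _ fun h' => by
        simp only at h'; linarith [h'.1]
      simp only [e1, d2 t h, add_sub_cancel_right]
    · have e1 : ∀ y, U (t, y) = 0 := fun y => hU.time _ fun h' => by
        simp only at h'; linarith [h'.2]
      simp only [e1, g3 t h, add_sub_cancel_left]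
  · simp only [g2 t ht, d2 t (ht.trans hm1), add_sub_cancel_right]
  · simp only [g3 t (hm2.trans ht), d3 t ht, add_sub_cancel_left]

end Crest.Agent.R126
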