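import Mathlib
import Crest.Agent.R126.Flow

/-! Elementary moves: localized affine fields. -/

set_option autoImplicit false

namespace Crest.Agent.R126

open Real Filter Topology Set Crest.AnalysisR.BoxFlow
open scoped ContDiff

local notation "S" => Real.smoothTransition

theorem contDiff_S : ContDiff ℝ ∞ S := Real.smoothTransition.contDiff

/-- spatial cut-off -/
noncomputable def chi (c R : Fin 3 → ℚ) (η : ℚ) (p : P4) : ℝ :=
  ∏ j : Fin 3, S ((η⁻¹ : ℚ) * co j.succ p + ((R j + 2 * η - c j) / η : ℚ)) *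
    S ((-η⁻¹ : ℚ) * co j.succ p + ((R j + 2 * η + c j) / η : ℚ))

theorem eff_chi (c R : Fin 3 → ℚ) (η : ℚ) : Eff (chi c R η) :=
  Eff.prod _ fun _ _ => (eff_S _ _ _).mul (eff_S _ _ _)

theorem chi_eq_one {c R : Fin 3 → ℚ} {η : ℚ} (hη : 0 < η) {p : P4}
    (h : ∀ j, |p.2 j - c j| ≤ R j + η) : chi c R η p = 1 := by
  have hη' : (0 : ℝ) < η := by exact_mod_cast hη
  refine Finset.prod_eq_one fun j _ => ?_
  have h1 := abs_le.1 (h j)
  rw [Real.smoothTransition.one_of_one_le, Real.smoothTransition.one_of_one_le, one_mul]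
  · push_cast
    rw [co_succ, show -(η : ℝ)⁻¹ * p.2 j + (R j + 2 * η + c j) / η = (R j + 2 * η + c j - p.2 j) / η
      by field_simp; ring, le_div_iff₀ hη']
    linarith
  · push_cast
    rw [co_succ, show (η : ℝ)⁻¹ * p.2 j + (R j + 2 * η - c j) / η = (R j + 2 * η - c j + p.2 j) / η
      by field_simp; ring, le_div_iff₀ hη']
    linarith

theorem chi_eq_zero {c R : Fin 3 → ℚ} {η : ℚ} (hη : 0 < η) {p : P4} {j : Fin 3}
    (h : R j + 2 * η ≤ |p.2 j - c j|) : chi c R η p = 0 := by
  have hη' : (0 : ℝ) < η := by exact_mod_cast hη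
  refine Finset.prod_eq_zero (Finset.mem_univ j) ?_
  rcases le_abs.1 h with h1 | h1
  · rw [Real.smoothTransition.zero_of_nonpos (x := ((-η⁻¹ : ℚ) : ℝ) * _ + _), mul_zero]
    push_cast
    rw [co_succ, show -(η : ℝ)⁻¹ * p.2 j + (R j + 2 * η + c j) / η = (R j + 2 * η + c j - p.2 j) / η
      by field_simp; ring]
    exact div_nonpos_of_nonpos_of_nonneg (by linarith) hη'.le
  · rw [Real.smoothTransition.zero_of_nonpos (x := ((η⁻¹ : ℚ) : ℝ) * _ + _), zero_mul]
    push_cast
    rw [co_succ, show (η : ℝ)⁻¹ * p.2 j + (R j + 2 * η - c j) / η = (R j + 2 * η - c j + p.2 j) / η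
      by field_simp; ring]
    exact div_nonpos_of_nonpos_of_nonneg (by linarith) hη'.le

/-- time profile -/
noncomputable def bump (a b : ℚ) (p : P4) : ℝ := a * deriv S (a * co 0 p + b)

theorem eff_bump (a b : ℚ) : Eff (bump a b) :=
  ((eff_S 0 a b).D 0).of_eq fun p => by
    rw [D_comp_affine (contDiff_S.differentiable (by simp)), if_pos rfl]; rfl

theorem D_bump (a b : ℚ) (j : Fin 3) (p : P4) : D j.succ (bump a b) p = 0 := by
  have h1 : Differentiable ℝ (deriv S) := (contDiff_infty_iff_deriv.1 contDiff_S).2.differentiable (by simp)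
  unfold bump
  rw [D_mul (differentiableAt_const _) (by fun_prop), D_const, D_comp_affine h1,
    if_neg (Fin.succ_ne_zero j)]
  simp

theorem elem {n : ℕ} (c R : Fin n → Fin 3 → ℚ) {η : ℚ} (hη : 0 < η)
    (hsep : ∀ i i', i ≠ i' → ∃ j, R i j + R i' j + 4 * η ≤ |c i j - c i' j|)
    (P : Fin n → Fin 3 → P4 → ℝ) (hP : ∀ i m, Eff (P i m))
    (V : Fin n → (Fin 3 → ℝ) → (Fin 3 → ℝ))
    (hV : ∀ i p, ∑ m, Ham m (m + 1) (P i m) p = V i p.2)
    (K : Fin n → Set (Fin 3 → ℝ)) (A : Fin n → (Fin 3 → ℝ) → (Fin 3 → ℝ))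
    (hφ : ∀ i, ∃ O, IsOpen O ∧ K i ⊆ O ∧ ∀ x ∈ O, ∃ φ : ℝ → Fin 3 → ℝ, φ 0 = x ∧ φ 1 = A i x ∧
      ∀ τ ∈ Icc (0 : ℝ) 1, HasDerivAt φ (V i (φ τ)) τ ∧ ∀ j, |φ τ j - c i j| < R i j + η) :
    Reach K A := by
  intro s s' hs
  have hη' : (0 : ℝ) < η := by exact_mod_cast hη
  have hs' : (0 : ℝ) < s' - s := by exact_mod_cast sub_pos.2 hs
  set a : ℚ := (s' - s)⁻¹ with ha
  set b : ℚ := -s / (s' - s) with hb
  have hab : ∀ t : ℝ, (a : ℝ) * t + b = (t - s) / (s' - s) := by
    intro t; rw [ha, hb]; push_cast; field_simp; ring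
  have hb0 : ∀ p : P4, p.1 ∉ Ioo (s : ℝ) s' → bump a b p = 0 := by
    intro p hp
    unfold bump
    rw [← iteratedDeriv_one, iteratedDeriv_S_out 0, mul_zero]
    rw [co_zero, hab, lt_div_iff₀ hs', div_lt_iff₀ hs']
    intro h
    exact hp ⟨by linarith [h.1], by linarith [h.2]⟩
  have hmul : ∀ i m p, Ham m (m + 1) (fun p => bump a b p * (chi (c i) (R i) η p * P i m p)) p =
      bump a b p • Ham m (m + 1) (fun p => chi (c i) (R i) η p * P i m p) p := fun i m p =>
    Ham_time_mul (eff_bump a b).smooth ((eff_chi _ _ _).mul (hP i m)).smooth (D_bump a b) p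
  refine ⟨fun p => ∑ i, ∑ m, Ham m (m + 1)
    (fun p => bump a b p * (chi (c i) (R i) η p * P i m p)) p, ?_, fun i => ?_⟩
  · refine Good.sum _ fun i _ => Good.sum _ fun m _ => good_Ham _ _
      ((eff_bump a b).mul ((eff_chi _ _ _).mul (hP i m))) ?_ fun p hp => ?_
    · refine HasCompactSupport.intro (K := Icc (s : ℝ) s' ×ˢ
        Icc (fun j => (c i j : ℝ) - (R i j + 2 * η)) (fun j => (c i j : ℝ) + (R i j + 2 * η)))
        (isCompact_Icc.prod isCompact_Icc) fun p hp => ?_
      rw [mem_prod, not_and_or] at hp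
      rcases hp with hp | hp
      · rw [hb0 p fun h => hp (Ioo_subset_Icc_self h), zero_mul]
      · have : ∃ j, R i j + 2 * η ≤ |p.2 j - c i j| := by
          by_contra hc
          push Not at hc
          apply hp
          constructor <;> intro j <;> have := abs_lt.1 (hc j) <;> simp only <;> linarith
        obtain ⟨j, hj⟩ := this
        rw [chi_eq_zero hη hj, zero_mul, mul_zero]
    · rw [hmul, hb0 p hp, zero_smul]
  · obtain ⟨O, hO1, hO2, hO3⟩ := hφ i
    refine ⟨O, hO1, hO2, fun x hx => ?_⟩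
    obtain ⟨φ, f0, f1, f2⟩ := hO3 x hx
    refine ⟨fun t => φ (S (a * t + b)), fun t => ?_, fun t ht => ?_, fun t ht => ?_⟩
    · obtain ⟨g1, g2⟩ := f2 (S (a * t + b))
        ⟨Real.smoothTransition.nonneg _, Real.smoothTransition.le_one _⟩
      have hσ : HasDerivAt (fun t : ℝ => S (a * t + b)) (deriv S (a * t + b) * (a * 1)) t :=
        (contDiff_S.differentiable (by simp) _).hasDerivAt.comp t
          (((hasDerivAt_id t).const_mul (a : ℝ)).add_const (b : ℝ))
      refine HasDerivAt.congr_deriv (g1.scomp t hσ) ?_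
      set y := φ (S (a * t + b)) with hy
      have hcont : ∀ j, Continuous fun p : P4 => p.2 j := fun j => by fun_prop
      show _ = ∑ i, ∑ m, Ham m (m + 1)
        (fun p => bump a b p * (chi (c i) (R i) η p * P i m p)) (t, y)
      rw [Finset.sum_eq_single i]
      · simp only [hmul]
        rw [← Finset.smul_sum]
        have e : chi (c i) (R i) η =ᶠ[𝓝 (t, y)] fun _ => 1 := by
          have : ∀ᶠ p : P4 in 𝓝 (t, y), ∀ j, |p.2 j - c i j| < R i j + η := by
            rw [eventually_all]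
            intro j
            exact ((hcont j).sub continuous_const).abs.continuousAt.eventually (gt_mem_nhds (g2 j))
          filter_upwards [this] with p hp using chi_eq_one hη fun j => (hp j).le
        have e2 : ∀ m, Ham m (m + 1) (fun p => chi (c i) (R i) η p * P i m p) (t, y) =
            Ham m (m + 1) (P i m) (t, y) := fun m =>
          Ham_congr (by filter_upwards [e] with p hp; rw [hp, one_mul])
        simp only [e2, hV]
        congr 1
        unfold bump
        rw [co_zero]; ring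
      · intro i' _ hi'
        obtain ⟨j, hj⟩ := hsep i i' hi'.symm
        have hj' : (R i j : ℝ) + R i' j + 4 * η ≤ |(c i j : ℝ) - c i' j| := by exact_mod_cast hj
        have h1 : (R i' j : ℝ) + 2 * η < |y j - c i' j| := by
          have h2 := abs_sub_le (c i j : ℝ) (y j) (c i' j)
          have h3 := g2 j
          rw [abs_sub_comm] at h3
          linarith
        have e : chi (c i') (R i') η =ᶠ[𝓝 (t, y)] fun _ => 0 := by
          have : ∀ᶠ p : P4 in 𝓝 (t, y), (R i' j : ℝ) + 2 * η < |p.2 j - c i' j| :=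
            ((hcont j).sub continuous_const).abs.continuousAt.eventually (lt_mem_nhds h1)
          filter_upwards [this] with p hp using chi_eq_zero hη hp.le
        refine Finset.sum_eq_zero fun m _ => ?_
        rw [Ham_congr (ψ' := fun _ => 0) (by filter_upwards [e] with p hp; rw [hp]; simp), Ham_zero]
      · intro h; exact absurd (Finset.mem_univ i) h
    · simp only
      rw [hab, Real.smoothTransition.zero_of_nonpos
        (div_nonpos_of_nonpos_of_nonneg (by linarith) hs'.le), f0]
    · simp only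
      rw [hab, Real.smoothTransition.one_of_one_le (by rw [le_div_iff₀ hs']; linarith), f1]

theorem D_affine (d e : Fin 4) (a b : ℝ) (p : P4) :
    D e (fun p => a * co d p + b) p = if e = d then a else 0 := by
  have := D_comp_affine (φ := fun x => x) differentiable_id d e a b p
  simpa using this

/-- open neighbourhood of a box -/
def obox (c h : Fin 3 → ℚ) (ε : ℝ) : Set (Fin 3 → ℝ) := {x | ∀ j, |x j - c j| < h j + ε}

theorem isOpen_obox (c h : Fin 3 → ℚ) (ε : ℝ) : IsOpen (obox c h ε) := by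
  have : obox c h ε = ⋂ j, {x : Fin 3 → ℝ | |x j - c j| < h j + ε} := by ext x; simp [obox]
  rw [this]
  exact isOpen_iInter_of_finite fun j => isOpen_lt (by fun_prop) continuous_const

theorem box_subset_obox (c h : Fin 3 → ℚ) {ε : ℝ} (hε : 0 < ε) : box c h ⊆ obox c h ε :=
  fun _ hx j => (hx j).trans_lt (by linarith)

theorem move_translate {n : ℕ} (c r v : Fin n → Fin 3 → ℚ) {η : ℚ} (hη : 0 < η)
    (hsep : ∀ i i', i ≠ i' → ∃ j, r i j + r i' j + 6 * η ≤ |c i j - c i' j|)
    (hv : ∀ i j, |v i j| ≤ η) :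
    Reach (fun i => box (c i) (r i)) fun i x j => x j + v i j := by
  have hη' : (0 : ℝ) < η := by exact_mod_cast hη
  refine elem c (fun i j => r i j + η) hη (fun i i' h => ?_)
    (fun i m p => (v i m : ℝ) * co (m + 1).succ p + (0 : ℚ)) (fun i m => eff_affine _ _ _)
    (fun i _ j => v i j) (fun i p => ?_) _ _ fun i => ?_
  · obtain ⟨j, hj⟩ := hsep i i' h
    exact ⟨j, by linarith⟩
  · funext j
    simp only [Finset.sum_apply, Ham, D_affine, Fin.sum_univ_three]
    fin_cases j <;> simp
  · refine ⟨obox (c i) (r i) η, isOpen_obox _ _ _, box_subset_obox _ _ hη', fun x hx => ?_⟩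
    refine ⟨fun τ j => x j + τ * v i j, by simp, by simp, fun τ hτ => ⟨?_, fun j => ?_⟩⟩
    · refine hasDerivAt_pi.2 fun j => ?_
      simpa using ((hasDerivAt_id τ).mul_const (v i j : ℝ)).const_add (x j)
    · have h1 := hx j
      have h2 : |(v i j : ℝ)| ≤ η := by exact_mod_cast hv i j
      have h3 : |τ * v i j| ≤ η := by
        rw [abs_mul, abs_of_nonneg hτ.1]
        nlinarith [hτ.1, hτ.2, abs_nonneg (v i j : ℝ)]
      have h4 := abs_add_le (x j - c i j) (τ * v i j)
      push_cast
      rw [show x j + τ * v i j - c i j = x j - c i j + τ * v i j by ring]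
      linarith

theorem move_reshape {n : ℕ} (c h ρ : Fin n → Fin 3 → ℚ) 
    (hρ : ∀ i j, 0 < ρ i j) (hvol : ∀ i, ∏ j, ρ i j = 1)
    (hsep : ∀ i i', i ≠ i' → ∃ j,
      (1 + ρ i j) * (h i j + 1) + (1 + ρ i' j) * (h i' j + 1) + 4 * 1 ≤ |c i j - c i' j|) :
    Reach (fun i => box (c i) (h i)) fun i x j => c i j + (ρ i j : ℝ) * (x j - c i j) := by
  have hρ' : ∀ i j, (0 : ℝ) < ρ i j := fun i j => by exact_mod_cast hρ i j
  have hlog : ∀ i, log (ρ i 0) + log (ρ i 1) + log (ρ i 2) = 0 := by
    intro i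
    rw [← log_mul (hρ' _ _).ne' (hρ' _ _).ne', ← log_mul (mul_pos (hρ' _ _) (hρ' _ _)).ne' (hρ' _ _).ne']
    have := hvol i
    rw [Fin.prod_univ_three] at this
    have h2 : (ρ i 0 : ℝ) * ρ i 1 * ρ i 2 = 1 := by exact_mod_cast this
    rw [h2, log_one]
  refine elem c (fun i j => (1 + ρ i j) * (h i j + 1)) one_pos hsep
    (fun i m p => (![log (ρ i 0), -log (ρ i 2), 0] m : ℝ) *
      ((((1 : ℚ) : ℝ) * co m.succ p + (-c i m : ℚ)) *
        (((1 : ℚ) : ℝ) * co (m + 1).succ p + (-c i (m + 1) : ℚ))))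
    (fun i m => Eff.mul (Eff.const ?_) ((eff_affine _ _ _).mul (eff_affine _ _ _)))
    (fun i y j => log (ρ i j) * (y j - c i j)) (fun i p => ?_) _ _ fun i => ?_
  · fin_cases m
    · exact creal_log (hρ i 0)
    · exact (creal_log (hρ i 2)).neg
    · exact (CReal.ofRat (Primrec.const 0)).of_eq fun _ => by simp
  · have key : ∀ (k : ℝ) (d d' e : Fin 4) (b b' : ℝ),
        D e (fun p => k * ((((1 : ℚ) : ℝ) * co d p + b) * (((1 : ℚ) : ℝ) * co d' p + b'))) p =
        k * ((if e = d then 1 else 0) * (co d' p + b') + (co d p + b) * (if e = d' then 1 else 0)) := by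
      intro k d d' e b b'
      rw [D_mul (differentiableAt_const _) (by fun_prop), D_const,
        D_mul (by fun_prop) (by fun_prop), D_affine, D_affine]
      simp
    funext j
    simp only [Finset.sum_apply, Ham, key, Fin.sum_univ_three]
    have := hlog i
    have e : log (ρ i 1) = -log (ρ i 0) - log (ρ i 2) := by linarith
    have e1 : co 1 p = p.2 0 := rfl
    have e2 : co 2 p = p.2 1 := rfl
    have e3 : co 3 p = p.2 2 := rfl
    fin_cases j
    · simp [e1, e2, e3]; left; ring
    · simp [e1, e2, e3]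
      rw [e]; ring
    · simp [e1, e2, e3]; left; ring
  · refine ⟨obox (c i) (h i) 1, isOpen_obox _ _ _, box_subset_obox _ _ one_pos, fun x hx => ?_⟩
    refine ⟨fun τ j => c i j + exp (τ * log (ρ i j)) * (x j - c i j), by simp, ?_,
      fun τ hτ => ⟨?_, fun j => ?_⟩⟩
    · funext j; simp only; rw [one_mul, exp_log (hρ' i j)]
    · refine hasDerivAt_pi.2 fun j => ?_
      refine HasDerivAt.congr_deriv
        ((((hasDerivAt_id τ).mul_const (log (ρ i j))).exp.mul_const (x j - c i j)).const_add _) ?_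
      simp only [id]; ring
    · have h1 := hx j
      have h2 : exp (τ * log (ρ i j)) ≤ 1 + ρ i j := by
        rcases le_total (log (ρ i j)) 0 with h0 | h0
        · have : exp (τ * log (ρ i j)) ≤ 1 := by
            rw [exp_le_one_iff]; exact mul_nonpos_of_nonneg_of_nonpos hτ.1 h0
          linarith [hρ' i j]
        · have : exp (τ * log (ρ i j)) ≤ exp (log (ρ i j)) :=
            exp_le_exp.2 (mul_le_of_le_one_left h0 hτ.2)
          rw [exp_log (hρ' i j)] at this
          linarith
      push_cast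
      rw [add_sub_cancel_left, abs_mul, abs_of_pos (exp_pos _)]
      have h3 := mul_le_mul h2 h1.le (abs_nonneg _) (by linarith [hρ' i j])
      linarith

end Crest.Agent.R126
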