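import Mathlib
import Crest.Agent.R126.Moves

/-! Motion planning: expand, reshape, permute, contract. -/

set_option autoImplicit false

namespace Crest.Agent.R126

open Real Filter Topology Set Crest.AnalysisR.BoxFlow
open scoped ContDiff

theorem mapsTo_translate {c c' v r : Fin 3 → ℚ} (h : ∀ j, c' j = c j + v j) :
    MapsTo (fun (x : Fin 3 → ℝ) j => x j + v j) (box c r) (box c' r) := by
  intro x hx j
  have := hx j
  simp only [h j]
  push_cast
  rwa [add_sub_add_right_eq_sub]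

theorem move_line {n : ℕ} (c v r : Fin n → Fin 3 → ℚ) {η : ℚ} (hη : 0 < η)
    (hsep : ∀ τ : ℚ, 0 ≤ τ → τ ≤ 1 → ∀ i i', i ≠ i' →
      ∃ j, r i j + r i' j + 6 * η ≤ |(c i j + τ * v i j) - (c i' j + τ * v i' j)|) :
    Reach (fun i => box (c i) (r i)) fun i x j => x j + v i j := by
  have h1 : ∀ᶠ M : ℕ in atTop, ∀ i j, |v i j| / η ≤ M :=
    eventually_all.2 fun i => eventually_all.2 fun j =>
      tendsto_natCast_atTop_atTop.eventually_ge_atTop _
  obtain ⟨M, hM, hM0⟩ := (h1.and (eventually_gt_atTop 0)).exists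
  have hM' : (0 : ℚ) < M := by exact_mod_cast hM0
  have key : ∀ m : ℕ, m ≤ M →
      Reach (fun i => box (c i) (r i)) fun i x j => x j + ((m / M * v i j : ℚ) : ℝ) := by
    intro m
    induction m with
    | zero => intro _; exact (Reach.refl _).of_eq fun i x => by simp
    | succ m ih =>
      intro hm
      have h2 := move_translate (fun i j => c i j + m / M * v i j) r (fun i j => v i j / M) hη
        (hsep (m / M) (by positivity) (by
          rw [div_le_one hM']; exact_mod_cast (Nat.le_succ m).trans hm))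
        (fun i j => by
          rw [abs_div, abs_of_pos hM', div_le_iff₀ hM']
          have := hM i j
          rw [div_le_iff₀ hη] at this
          linarith)
      refine ((ih ((Nat.le_succ m).trans hm)).trans h2 (fun i => by fun_prop)
        (fun i => mapsTo_translate fun j => rfl)).of_eq fun i x => ?_
      funext j
      push_cast
      ring
  refine (key M le_rfl).of_eq fun i x => ?_
  funext j
  rw [div_self hM'.ne', one_mul]

theorem sep_of_disjoint {a h a' h' : Fin 3 → ℚ} (hh : ∀ j, 0 < h j) (hh' : ∀ j, 0 < h' j)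
    (hd : Disjoint (box a h) (box a' h')) : ∃ j, h j + h' j < |a j - a' j| := by
  by_contra hc
  push Not at hc
  have hd' := Set.disjoint_left.1 hd
  refine @hd' (fun j => (a j : ℝ) + (a' j - a j) * (h j / (h j + h' j)))
    (fun j => ?_) (fun j => ?_)
  · have h1 : (0 : ℝ) < h j := by exact_mod_cast hh j
    have h2 : (0 : ℝ) < h' j := by exact_mod_cast hh' j
    have h3 : |(a j : ℝ) - a' j| ≤ h j + h' j := by exact_mod_cast hc j
    rw [add_sub_cancel_left, abs_mul, abs_sub_comm, abs_of_pos (by positivity : (0 : ℝ) < h j / (h j + h' j)),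
      ← mul_div_assoc, div_le_iff₀ (by positivity)]
    nlinarith
  · have h1 : (0 : ℝ) < h j := by exact_mod_cast hh j
    have h2 : (0 : ℝ) < h' j := by exact_mod_cast hh' j
    have h3 : |(a j : ℝ) - a' j| ≤ h j + h' j := by exact_mod_cast hc j
    have e : (a j : ℝ) + (a' j - a j) * (h j / (h j + h' j)) - a' j =
        (a j - a' j) * (h' j / (h j + h' j)) := by field_simp; ring
    rw [e, abs_mul, abs_of_pos (by positivity : (0 : ℝ) < h' j / (h j + h' j)),
      ← mul_div_assoc, div_le_iff₀ (by positivity)]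
    nlinarith

theorem exists_margin {n : ℕ} {a h : Fin n → Fin 3 → ℚ}
    (hs : ∀ i i', i ≠ i' → ∃ j, h i j + h i' j < |a i j - a i' j|) :
    ∃ η : ℚ, 0 < η ∧ ∀ i i', i ≠ i' → ∃ j, h i j + h i' j + 6 * η ≤ |a i j - a i' j| := by
  have h1 : ∀ᶠ M : ℕ in atTop, ∀ i i', i ≠ i' →
      ∃ j, h i j + h i' j + 6 * ((M : ℚ) + 1)⁻¹ ≤ |a i j - a i' j| := by
    refine eventually_all.2 fun i => eventually_all.2 fun i' => ?_
    by_cases hi : i = i'
    · exact Eventually.of_forall fun _ h => absurd hi h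
    obtain ⟨j, hj⟩ := hs i i' hi
    have hg : 0 < |a i j - a i' j| - (h i j + h i' j) := by linarith
    filter_upwards [(tendsto_natCast_atTop_atTop (R := ℚ)).eventually_ge_atTop
      (6 / (|a i j - a i' j| - (h i j + h i' j)))] with M hM _
    refine ⟨j, ?_⟩
    rw [div_le_iff₀ hg] at hM
    have hM0 : (0 : ℚ) < M + 1 := by positivity
    have : 6 * ((M : ℚ) + 1)⁻¹ ≤ |a i j - a i' j| - (h i j + h i' j) := by
      rw [← div_eq_mul_inv, div_le_iff₀ hM0]; nlinarith
    linarith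
  obtain ⟨M, hM⟩ := h1.exists
  exact ⟨((M : ℚ) + 1)⁻¹, by positivity, hM⟩

theorem far {n : ℕ} (p q : Fin n → Fin 3 → ℚ)
    (hne : ∀ τ : ℝ, ∀ i i', i ≠ i' →
      ∃ j, (1 - τ) * ((p i j : ℝ) - p i' j) + τ * ((q i j : ℝ) - q i' j) ≠ 0)
    (R : Fin n → Fin n → Fin 3 → ℚ) :
    ∀ᶠ L : ℕ in atTop, ∀ i i', i ≠ i' → ∀ τ : ℚ, 0 ≤ τ → τ ≤ 1 →
      ∃ j, R i i' j ≤ |(L * p i j + τ * (L * (q i j - p i j))) -
        (L * p i' j + τ * (L * (q i' j - p i' j)))| := by
  refine eventually_all.2 fun i => eventually_all.2 fun i' => ?_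
  by_cases hi : i = i'
  · exact Eventually.of_forall fun _ h => absurd hi h
  set f : ℝ → Fin 3 → ℝ := fun τ j =>
    (1 - τ) * ((p i j : ℝ) - p i' j) + τ * ((q i j : ℝ) - q i' j) with hf
  have hfc : Continuous fun τ => ‖f τ‖ := by fun_prop
  obtain ⟨μ, hμ0, hμ⟩ := (isCompact_Icc (a := (0 : ℝ)) (b := 1)).exists_forall_le' (a := 0)
    hfc.continuousOn fun τ _ => by
      obtain ⟨j, hj⟩ := hne τ i i' hi
      exact norm_pos_iff.2 fun h => hj (congrFun h j)
  have h1 : ∀ᶠ L : ℕ in atTop, ∀ j, (R i i' j : ℝ) / μ ≤ L :=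
    eventually_all.2 fun j => tendsto_natCast_atTop_atTop.eventually_ge_atTop _
  filter_upwards [h1] with L hL _ τ h0 h1
  have h2 := hμ τ ⟨by exact_mod_cast h0, by exact_mod_cast h1⟩
  have h3 : ∃ j, μ ≤ |f τ j| := by
    by_contra hc
    push Not at hc
    exact absurd ((pi_norm_lt_iff hμ0).2 hc) (not_lt.2 h2)
  obtain ⟨j, hj⟩ := h3
  refine ⟨j, ?_⟩
  have h4 := hL j
  rw [div_le_iff₀ hμ0] at h4
  have h5 : (R i i' j : ℝ) ≤ |(L * p i j + τ * (L * (q i j - p i j)) : ℝ) -
        (L * p i' j + τ * (L * (q i' j - p i' j)))| := by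
    have e : (L * p i j + τ * (L * (q i j - p i j)) : ℝ) -
        (L * p i' j + τ * (L * (q i' j - p i' j))) = L * f τ j := by simp only [hf]; ring
    rw [e, abs_mul, Nat.abs_cast]
    exact h4.trans (mul_le_mul_of_nonneg_left hj (Nat.cast_nonneg _))
  exact_mod_cast h5

/-- generic intermediate centres -/
def mid (n : ℕ) (N : ℚ) (i : Fin n) : Fin 3 → ℚ := ![(i : ℕ), (i : ℕ) * N, 0]

theorem generic {n : ℕ} {a : Fin n → Fin 3 → ℚ} {N : ℚ}
    (ha : ∀ i i', i ≠ i' → ∃ j, a i j ≠ a i' j)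
    (hN : ∀ i i', N ≠ (a i 1 - a i' 1) / (a i 0 - a i' 0)) (σ τ : ℝ) (hστ : σ + τ = 1)
    (i i' : Fin n) (hi : i ≠ i') :
    ∃ j, σ * ((a i j : ℝ) - a i' j) + τ * ((mid n N i j : ℝ) - mid n N i' j) ≠ 0 := by
  by_contra hc
  push Not at hc
  have h0 := hc 0
  have h1 := hc 1
  simp only [mid, Matrix.cons_val_zero, Matrix.cons_val_one] at h0 h1
  push_cast at h0 h1
  have hm : ((i : ℕ) : ℝ) - ((i' : ℕ) : ℝ) ≠ 0 := by
    rw [sub_ne_zero]
    exact_mod_cast fun h => hi (Fin.ext h)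
  have h2 : σ * (((a i 1 : ℝ) - a i' 1) - N * ((a i 0 : ℝ) - a i' 0)) = 0 := by
    linear_combination h1 - N * h0
  rcases mul_eq_zero.1 h2 with h | h
  · have hτ : τ = 1 := by linarith
    rw [h, hτ] at h0
    apply hm; linarith
  · have h3 : a i 0 - a i' 0 = 0 := by
      by_contra h4
      apply hN i i'
      rw [eq_div_iff h4]
      have : (N : ℝ) * ((a i 0 : ℝ) - a i' 0) = (a i 1 : ℝ) - a i' 1 := by linarith
      exact_mod_cast this
    have h3' : (a i 0 : ℝ) - a i' 0 = 0 := by exact_mod_cast h3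
    rw [h3', mul_zero, zero_add] at h0
    have hτ : τ = 0 := (mul_eq_zero.1 h0).resolve_right hm
    have hσ : σ = 1 := by linarith
    obtain ⟨j, hj⟩ := ha i i' hi
    have := hc j
    rw [hτ, hσ, one_mul, zero_mul, add_zero, sub_eq_zero] at this
    exact hj (by exact_mod_cast this)

theorem reach_main {n : ℕ} (a b h k : Fin n → Fin 3 → ℚ)
    (hh : ∀ i j, 0 < h i j) (hk : ∀ i j, 0 < k i j)
    (ha : Pairwise fun i i' => Disjoint (box (a i) (h i)) (box (a i') (h i')))
    (hb : Pairwise fun i i' => Disjoint (box (b i) (k i)) (box (b i') (k i')))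
    (hvol : ∀ i, ∏ j : Fin 3, k i j / h i j = 1) :
    Reach (fun i => box (a i) (h i))
      fun i x j => (b i j : ℝ) + ((k i j / h i j : ℚ) : ℝ) * (x j - (a i j : ℝ)) := by
  have sa : ∀ i i', i ≠ i' → ∃ j, h i j + h i' j < |a i j - a i' j| :=
    fun i i' hi => sep_of_disjoint (hh i) (hh i') (ha hi)
  have sb : ∀ i i', i ≠ i' → ∃ j, k i j + k i' j < |b i j - b i' j| :=
    fun i i' hi => sep_of_disjoint (hk i) (hk i') (hb hi)
  have na : ∀ i i', i ≠ i' → ∃ j, a i j ≠ a i' j := fun i i' hi => by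
    obtain ⟨j, hj⟩ := sa i i' hi
    refine ⟨j, fun h0 => ?_⟩
    rw [h0, sub_self, abs_zero] at hj
    linarith [hh i j, hh i' j]
  have nb : ∀ i i', i ≠ i' → ∃ j, b i j ≠ b i' j := fun i i' hi => by
    obtain ⟨j, hj⟩ := sb i i' hi
    refine ⟨j, fun h0 => ?_⟩
    rw [h0, sub_self, abs_zero] at hj
    linarith [hk i j, hk i' j]
  obtain ⟨ηa, hηa, ma⟩ := exists_margin sa
  obtain ⟨ηb, hηb, mb⟩ := exists_margin sb
  obtain ⟨N, hN⟩ := Infinite.exists_notMem_finset
    ((Finset.univ.image fun x : Fin n × Fin n => (a x.1 1 - a x.2 1) / (a x.1 0 - a x.2 0)) ∪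
      (Finset.univ.image fun x : Fin n × Fin n => (b x.1 1 - b x.2 1) / (b x.1 0 - b x.2 0)))
  have hNa : ∀ i i', N ≠ (a i 1 - a i' 1) / (a i 0 - a i' 0) := fun i i' h0 =>
    hN (Finset.mem_union_left _ (Finset.mem_image.2 ⟨(i, i'), Finset.mem_univ _, h0.symm⟩))
  have hNb : ∀ i i', N ≠ (b i 1 - b i' 1) / (b i 0 - b i' 0) := fun i i' h0 =>
    hN (Finset.mem_union_right _ (Finset.mem_image.2 ⟨(i, i'), Finset.mem_univ _, h0.symm⟩))
  have g1 : ∀ τ : ℝ, ∀ i i', i ≠ i' →
      ∃ j, (1 - τ) * ((a i j : ℝ) - a i' j) + τ * ((mid n N i j : ℝ) - mid n N i' j) ≠ 0 :=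
    fun τ => generic na hNa (1 - τ) τ (by ring)
  have g2 : ∀ τ : ℝ, ∀ i i', i ≠ i' →
      ∃ j, (1 - τ) * ((mid n N i j : ℝ) - mid n N i' j) + τ * ((b i j : ℝ) - b i' j) ≠ 0 := by
    intro τ i i' hi
    obtain ⟨j, hj⟩ := generic nb hNb τ (1 - τ) (by ring) i i' hi
    exact ⟨j, by rwa [add_comm]⟩
  obtain ⟨L, ⟨⟨f1, f2⟩, f3⟩, hL⟩ := ((((far a (mid n N) g1 fun i i' j =>
    (1 + k i j / h i j) * (h i j + 1) + (1 + k i' j / h i' j) * (h i' j + 1) + 4 * 1).and
    (far a (mid n N) g1 fun i i' j => k i j + k i' j + 6 * 1)).and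
    (far (mid n N) b g2 fun i i' j => k i j + k i' j + 6 * 1)).and (eventually_ge_atTop 1)).exists
  have hL' : (1 : ℚ) ≤ L := by exact_mod_cast hL
  have scale : ∀ (x y l : ℚ), 1 ≤ l → |x - y| ≤ |l * x - l * y| := by
    intro x y l hl
    rw [← mul_sub, abs_mul, abs_of_pos (by linarith : 0 < l)]
    exact le_mul_of_one_le_left (abs_nonneg _) hl
  have R1 := move_line a (fun i j => (L - 1) * a i j) h hηa fun τ h0 h1 i i' hi => by
    obtain ⟨j, hj⟩ := ma i i' hi
    refine ⟨j, hj.trans ((scale _ _ (1 + τ * (L - 1)) (by nlinarith)).trans (le_of_eq ?_))⟩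
    congr 1; ring
  have R2 := move_reshape (fun i j => L * a i j) h (fun i j => k i j / h i j)
    (fun i j => div_pos (hk i j) (hh i j)) hvol fun i i' hi => by
      simpa using f1 i i' hi 0 le_rfl zero_le_one
  have R3 := move_line (fun i j => L * a i j) (fun i j => L * (mid n N i j - a i j)) k one_pos
    fun τ h0 h1 i i' hi => f2 i i' hi τ h0 h1
  have R4 := move_line (fun i j => L * mid n N i j) (fun i j => L * (b i j - mid n N i j)) k one_pos
    fun τ h0 h1 i i' hi => f3 i i' hi τ h0 h1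
  have R5 := move_line (fun i j => L * b i j) (fun i j => (1 - L) * b i j) k hηb
    fun τ h0 h1 i i' hi => by
      obtain ⟨j, hj⟩ := mb i i' hi
      refine ⟨j, hj.trans ((scale _ _ (L + τ * (1 - L)) (by nlinarith)).trans (le_of_eq ?_))⟩
      congr 1; ring
  have R45 := R4.trans R5 (fun i => by fun_prop) fun i => mapsTo_translate fun j => by ring
  have R35 := R3.trans R45 (fun i => by fun_prop) fun i => mapsTo_translate fun j => by ring
  have R25 := R2.trans R35 (fun i => by fun_prop) fun i x hx j => by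
    have h1 := hx j
    have h2 : (0 : ℝ) < h i j := by exact_mod_cast hh i j
    have h3 : (0 : ℝ) < k i j := by exact_mod_cast hk i j
    simp only [add_sub_cancel_left]
    rw [abs_mul, Rat.cast_div, abs_of_pos (div_pos h3 h2), div_mul_eq_mul_div, div_le_iff₀ h2]
    exact mul_le_mul_of_nonneg_left h1 h3.le
  have R15 := R1.trans R25 (fun i => by fun_prop) fun i => mapsTo_translate fun j => by ring
  refine R15.of_eq fun i x => ?_
  funext j
  push_cast
  ring

end Crest.Agent.R126
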